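import Vale.Agent.P002.H934.Par

/-!
# Direct images: comparison of the two forms of the definition, conjugation
-/

namespace Vale.Agent.P002.H934

open Matrix

variable {Γ G : Type} [Group Γ] [Group G] {m r : ℕ}

/-- The extension by zero of a cocycle. -/
noncomputable def ext0 (N : Subgroup Γ) (A : Set Γ) (W : Γ →* SpecialLinearGroup (Fin m) ℂ) :
    ZP N A W →ₗ[ℂ] (Γ → Fin m → ℂ) := by
  classical
  exact
  { toFun := fun c x => if h : x ∈ N then c.1.1 ⟨x, h⟩ else 0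
    map_add' := by
      intro c d
      funext x
      change (if h : x ∈ N then (c + d).1.1 ⟨x, h⟩ else 0) =
        (if h : x ∈ N then c.1.1 ⟨x, h⟩ else 0) + (if h : x ∈ N then d.1.1 ⟨x, h⟩ else 0)
      split_ifs
      · rfl
      · rw [add_zero]
    map_smul' := by
      intro t c
      funext x
      change (if h : x ∈ N then (t • c).1.1 ⟨x, h⟩ else 0) =
        t • (if h : x ∈ N then c.1.1 ⟨x, h⟩ else 0)
      split_ifs
      · rfl
      · rw [smul_zero] }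

theorem ext0_mem {N : Subgroup Γ} {A : Set Γ} {W : Γ →* SpecialLinearGroup (Fin m) ℂ}
    (c : ZP N A W) {x : Γ} (h : x ∈ N) : ext0 N A W c x = c.1.1 ⟨x, h⟩ :=
  dif_pos h

theorem ext0_isPar {N : Subgroup Γ} {A : Set Γ} {W : Γ →* SpecialLinearGroup (Fin m) ℂ}
    (c : ZP N A W) : IsPar N A W (ext0 N A W c) := by
  constructor
  · intro x hx y hy
    rw [ext0_mem c hx, ext0_mem c hy, ext0_mem c (N.mul_mem hx hy)]
    exact c.1.2 ⟨x, hx⟩ ⟨y, hy⟩
  · intro x hx hA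
    rw [ext0_mem c hx]
    exact c.2 ⟨x, hx⟩ hA

theorem exists_res {N : Subgroup Γ} {A : Set Γ} {W : Γ →* SpecialLinearGroup (Fin m) ℂ}
    {c : Γ → Fin m → ℂ} (hc : IsPar N A W c) : ∃ d : ZP N A W, ∀ x : N, d.1.1 x = c x :=
  ⟨⟨⟨fun x => c x, fun x y => hc.1 x x.2 y y.2⟩, fun x hx => hc.2 x x.2 hx⟩, fun _ => rfl⟩

theorem isPar_zero {N : Subgroup Γ} {A : Set Γ} {W : Γ →* SpecialLinearGroup (Fin m) ℂ}
    {c : Γ → Fin m → ℂ} (hc : ∀ x ∈ N, c x = 0) : IsPar N A W c := by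
  constructor
  · intro x hx y hy
    rw [hc x hx, hc y hy, hc _ (N.mul_mem hx hy), Matrix.mulVec_zero, add_zero]
  · intro x hx _
    exact ⟨0, by rw [hc x hx, Matrix.mulVec_zero, sub_zero]⟩

theorem isDirZ {π : Γ →* G} {A : Set Γ} {χ : G →* ℂˣ}
    {W : Γ →* SpecialLinearGroup (Fin m) ℂ} {ρ : G →* SpecialLinearGroup (Fin r) ℂ}
    (h : IsDirectImage π A χ W ρ) : IsDirZ π A χ W ρ := by
  obtain ⟨e, hs, he, heq⟩ := h
  have hloc : ∀ c d : Γ → Fin m → ℂ, (∀ x ∈ π.ker, c x = d x) → e c = e d := by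
    intro c d hcd
    rw [← sub_eq_zero, ← map_sub]
    have h1 : ∀ x ∈ π.ker, (c - d) x = 0 := fun x hx => by
      rw [Pi.sub_apply, hcd x hx, sub_self]
    refine (he _ (isPar_zero h1)).2 ⟨0, fun x hx => ?_⟩
    rw [h1 x hx, Matrix.mulVec_zero, sub_zero]
  refine ⟨e ∘ₗ ext0 π.ker A W, fun y => ?_, fun c => ?_, fun g c c' hc => ?_⟩
  · obtain ⟨c, hc, hy⟩ := hs y
    obtain ⟨d, hd⟩ := exists_res hc
    refine ⟨d, ?_⟩
    rw [LinearMap.comp_apply, ← hy]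
    refine hloc _ _ fun x hx => ?_
    rw [ext0_mem d hx, hd]
  · rw [LinearMap.comp_apply, he _ (ext0_isPar c)]
    constructor
    · rintro ⟨v, hv⟩
      refine ⟨v, Subtype.ext (funext fun x => ?_)⟩
      have h1 := hv x.1 x.2
      rw [ext0_mem c x.2] at h1
      exact h1
    · rintro ⟨v, hv⟩
      refine ⟨v, fun x hx => ?_⟩
      rw [ext0_mem c hx, hv]
      rfl
  · rw [LinearMap.comp_apply, LinearMap.comp_apply, heq g _ (ext0_isPar c)]
    congr 1
    refine hloc _ _ fun x hx => ?_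
    have h2 : g⁻¹ * x * g ∈ π.ker := (cj π.ker g ⟨x, hx⟩).2
    rw [ext0_mem c' hx, hc]
    beta_reduce
    rw [ext0_mem c h2]
    rfl

/-- Direct images are stable under conjugation. -/
theorem IsDI.conj {ι κ : Type} {R : Set (FreeGroup ι)} {R' : Set (FreeGroup κ)}
    {π : PresentedGroup R' →* PresentedGroup R} {A : Set (PresentedGroup R')}
    {χ : PresentedGroup R →* ℂˣ} {V : κ → SpecialLinearGroup (Fin m) ℂ}
    {X : ι → SpecialLinearGroup (Fin r) ℂ} (h : IsDI π A χ V X)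
    (P : SpecialLinearGroup (Fin r) ℂ) : IsDI π A χ V fun p => P⁻¹ * X p * P := by
  obtain ⟨W, ρ, hW, hρ, e, hs, he, heq⟩ := h
  have hP1 : (P⁻¹).1 * P.1 = 1 := congrArg Subtype.val (inv_mul_cancel P)
  have hP2 : P.1 * (P⁻¹).1 = 1 := congrArg Subtype.val (mul_inv_cancel P)
  refine ⟨W, (MulAut.conj P⁻¹).toMonoidHom.comp ρ, hW, fun p => ?_,
    (P⁻¹).1.mulVecLin ∘ₗ e, fun y => ?_, fun c hc => ?_, fun g c hc => ?_⟩
  · rw [MonoidHom.comp_apply, hρ]
    change P⁻¹ * X p * (P⁻¹)⁻¹ = _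
    rw [inv_inv]
  · obtain ⟨c, hc, hy⟩ := hs (P.1 *ᵥ y)
    refine ⟨c, hc, ?_⟩
    rw [LinearMap.comp_apply, hy, Matrix.mulVecLin_apply, Matrix.mulVec_mulVec, hP1,
      Matrix.one_mulVec]
  · rw [← he c hc, LinearMap.comp_apply, Matrix.mulVecLin_apply]
    constructor
    · intro h1
      have h2 := congrArg (fun v => P.1 *ᵥ v) h1
      change P.1 *ᵥ ((P⁻¹).1 *ᵥ e c) = P.1 *ᵥ 0 at h2
      rwa [Matrix.mulVec_mulVec, hP2, Matrix.one_mulVec, Matrix.mulVec_zero] at h2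
    · intro h1
      rw [h1, Matrix.mulVec_zero]
  · have h1 : ((MulAut.conj P⁻¹).toMonoidHom.comp ρ (π g)).1 = (P⁻¹).1 * (ρ (π g)).1 * P.1 := by
      change (P⁻¹ * ρ (π g) * (P⁻¹)⁻¹).1 = _
      rw [inv_inv]
      rfl
    rw [h1, LinearMap.comp_apply, LinearMap.comp_apply, Matrix.mulVecLin_apply,
      Matrix.mulVecLin_apply, Matrix.mulVec_mulVec, Matrix.mul_assoc _ P.1, hP2, Matrix.mul_one,
      ← Matrix.mulVec_mulVec, heq g c hc, Matrix.mulVec_smul]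

end Vale.Agent.P002.H934
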