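import Vale.Agent.P002R.YOrbStmt

/-!
# Subquotients: definition
-/

namespace Vale.Agent.P002.H934

open Matrix Vale.Agent.P002R.Orb

/-- The matrices `X` are those of the generators acting on a subquotient of `ℂ ^ n` which depends
polynomially on `V`: the subspace `Z` is given by the linear equations `E(V)`, it is mapped by `e`
onto `ℂ ^ r`, the kernel is the image of the matrix `S(V)`, and the generator `p` acts by the
matrix `B p (V)` on `Z`, multiplied by `c p`. Here `E`, `S` and `B` consist of polynomials with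
integral coefficients in the matrix entries. -/
def IsSubq {ι κ : Type} {m n l r : ℕ} (E : Set (Fin n → MvPolynomial (κ × Fin m × Fin m) ℤ))
    (S : Matrix (Fin n) (Fin l) (MvPolynomial (κ × Fin m × Fin m) ℤ))
    (B : ι → Matrix (Fin n) (Fin n) (MvPolynomial (κ × Fin m × Fin m) ℤ)) (c : ι → ℂ)
    (V : κ → SpecialLinearGroup (Fin m) ℂ) (X : ι → SpecialLinearGroup (Fin r) ℂ) : Prop :=
  ∃ (Z : Submodule ℂ (Fin n → ℂ)) (e : (Fin n → ℂ) →ₗ[ℂ] (Fin r → ℂ)),
    (∀ z, z ∈ Z ↔ ∀ f ∈ E, ∑ j, value (f j) V * z j = 0) ∧ Submodule.map e Z = ⊤ ∧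
    (∀ z, (z ∈ Z ∧ e z = 0) ↔ ∃ v, z = (S.map fun f => value f V) *ᵥ v) ∧
    ∀ p, ∀ z ∈ Z, ((B p).map fun f => value f V) *ᵥ z ∈ Z ∧
      (X p).1 *ᵥ e z = c p • e (((B p).map fun f => value f V) *ᵥ z)

end Vale.Agent.P002.H934
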