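import Vale.Agent.P002.H934.DefsD
import Vale.Agent.P002.H934.DefsS
import Vale.Agent.P002.H2.DefsM
import Vale.Agent.P002.H252.DefsC

/-!
# Direct images: the class of families
-/

namespace Vale.Agent.P002.H934

open Matrix Vale.Agent.P002R.Orb Vale.Agent.P002.H326J Vale.Agent.P002.H2 Vale.Agent.P002.H252

/-- The smallest class of sets `T` of representations of groups `⟨ι | R⟩` into groups `SL_r` which
contains the sets with typed (very general) members and the integral representations over number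
fields and is closed under direct images, subquotients given by polynomial matrices with integral
coefficients, polynomial constructions with integral coefficients (pullback, dual, tensor products,
Schur functors, induction), direct sums, conjugation, open subsets, unions and passage to a set in
which the given one is dense. -/
inductive IsGeom : {ι : Type} → Set (FreeGroup ι) → {r : ℕ} →
    Set (ι → SpecialLinearGroup (Fin r) ℂ) → Prop
  /-- Direct sums of irreducible representations of given types. -/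
  | multi {ι : Type} [Finite ι] (R : Set (FreeGroup ι)) {r s k : ℕ} (w : Fin s → FreeGroup ι)
      (C : Fin s → SpecialLinearGroup (Fin r) ℂ)
      (hC : ∀ j z, IsEigenvalue (C j) z → ∃ n : ℕ, 0 < n ∧ z ^ n = 1)
      (D : Fin k → TypeDatum (PresentedGroup R))
      (hD : ∀ a, (D a).Valid fun j => PresentedGroup.mk R (w j)) : IsGeom R (YMulti R w C k D)
  /-- Open sets whose very general members are typed. -/
  | typed {ι : Type} [Finite ι] (R : Set (FreeGroup ι)) {r s : ℕ} (w : Fin s → FreeGroup ι)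
      (C : Fin s → SpecialLinearGroup (Fin r) ℂ)
      (hC : ∀ j z, IsEigenvalue (C j) z → ∃ n : ℕ, 0 < n ∧ z ^ n = 1)
      (P : Set (MvPolynomial (ι × Fin r × Fin r) ℂ))
      (B : ℕ → Set (MvPolynomial (ι × Fin r × Fin r) ℂ))
      (hB : ∀ n, IsDenseIn (OpenIn (OpenIn (YW R w C) P) (B n)) (OpenIn (YW R w C) P))
      (hT : ∀ X ∈ OpenIn (YW R w C) P, (∀ n, ∃ F ∈ B n, value F X ≠ 0) → IsTyped R w X) :
      IsGeom R (OpenIn (YW R w C) P)
  /-- Integral representations. -/
  | point {ι : Type} (R : Set (FreeGroup ι)) {r : ℕ} (X : ι → SpecialLinearGroup (Fin r) ℂ)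
      (L : IntermediateField ℚ ℂ) (hL : FiniteDimensional ℚ L) (hX : IsIntegralRep L X) :
      IsGeom R {X}
  /-- Direct images. -/
  | direct {ι κ : Type} [Finite ι] {R : Set (FreeGroup ι)} {R' : Set (FreeGroup κ)}
      {m r s : ℕ} {T : Set (κ → SpecialLinearGroup (Fin m) ℂ)} (h : IsGeom R' T)
      (π : PresentedGroup R' →* PresentedGroup R) (hπ : Function.Surjective π) (hN : π.ker.FG)
      (χ : PresentedGroup R →* ℂˣ) (hχ : ∀ g, IsIntegral ℤ (χ g).1)
      (w' : Fin s → FreeGroup κ) (C' : Fin s → SpecialLinearGroup (Fin m) ℂ)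
      (hT : ∀ V ∈ T, ∀ j, IsConj (C' j) (FreeGroup.lift V (w' j)))
      (Y : Set (ι → SpecialLinearGroup (Fin r) ℂ))
      (hY : ∀ X ∈ Y, ∀ g, (fun p => g⁻¹ * X p * g) ∈ Y)
      (hU : ∀ V ∈ T, ∃ X, X ∈ DISet π w' χ {V} Y) : IsGeom R (DISet π w' χ T Y)
  /-- Subquotients given by polynomial matrices, twisted by scalars. -/
  | subq {ι κ : Type} [Finite ι] (R : Set (FreeGroup ι)) {R' : Set (FreeGroup κ)} {m n l r : ℕ}
      {T : Set (κ → SpecialLinearGroup (Fin m) ℂ)} (h : IsGeom R' T)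
      (E : Set (Fin n → MvPolynomial (κ × Fin m × Fin m) ℤ))
      (S : Matrix (Fin n) (Fin l) (MvPolynomial (κ × Fin m × Fin m) ℤ))
      (B : ι → Matrix (Fin n) (Fin n) (MvPolynomial (κ × Fin m × Fin m) ℤ)) (c : ι → ℂ)
      (hc : ∀ p, IsIntegral ℤ (c p)) (Y : Set (ι → SpecialLinearGroup (Fin r) ℂ))
      (hY : ∀ X ∈ Y, ∀ g, (fun p => g⁻¹ * X p * g) ∈ Y)
      (hU : ∀ V ∈ T, ∃ X ∈ Y, IsSubq E S B c V X) :
      IsGeom R {X ∈ Y | ∃ V ∈ T, IsSubq E S B c V X}
  /-- Polynomial constructions. -/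
  | image {ι κ : Type} (R : Set (FreeGroup ι)) {R' : Set (FreeGroup κ)} {m r : ℕ}
      {T : Set (κ → SpecialLinearGroup (Fin m) ℂ)} (h : IsGeom R' T)
      (Φ : ι × Fin r × Fin r → MvPolynomial (κ × Fin m × Fin m) ℤ)
      (hΦ : ∀ V ∈ T, ∃ X : ι → SpecialLinearGroup (Fin r) ℂ,
        ∀ p i j, (X p).1 i j = value (Φ (p, i, j)) V) :
      IsGeom R {X : ι → SpecialLinearGroup (Fin r) ℂ | ∃ V ∈ T,
        ∀ p i j, (X p).1 i j = value (Φ (p, i, j)) V}
  /-- Direct sums. -/
  | sum {ι : Type} {R : Set (FreeGroup ι)} {m n : ℕ} {T : Set (ι → SpecialLinearGroup (Fin m) ℂ)}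
      {T' : Set (ι → SpecialLinearGroup (Fin n) ℂ)} (h : IsGeom R T) (h' : IsGeom R T') :
      IsGeom R {X : ι → SpecialLinearGroup (Fin (m + n)) ℂ | ∃ V ∈ T, ∃ V' ∈ T', ∀ p, (X p).1 =
        (Matrix.fromBlocks (V p).1 0 0 (V' p).1).submatrix finSumFinEquiv.symm
          finSumFinEquiv.symm}
  /-- Conjugation. -/
  | conj {ι : Type} {R : Set (FreeGroup ι)} {r : ℕ} {T : Set (ι → SpecialLinearGroup (Fin r) ℂ)}
      (h : IsGeom R T) : IsGeom R {X | ∃ V ∈ T, ∃ g, ∀ p, X p = g * V p * g⁻¹}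
  /-- Open subsets. -/
  | opn {ι : Type} {R : Set (FreeGroup ι)} {r : ℕ} {T : Set (ι → SpecialLinearGroup (Fin r) ℂ)}
      (h : IsGeom R T) (P : Set (MvPolynomial (ι × Fin r × Fin r) ℂ)) : IsGeom R (OpenIn T P)
  /-- Unions. -/
  | union {ι : Type} {R : Set (FreeGroup ι)} {r : ℕ}
      {T T' : Set (ι → SpecialLinearGroup (Fin r) ℂ)} (h : IsGeom R T) (h' : IsGeom R T') :
      IsGeom R (T ∪ T')
  /-- Sets in which `T` is dense. -/
  | dense {ι : Type} {R : Set (FreeGroup ι)} {r : ℕ}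
      {T T' : Set (ι → SpecialLinearGroup (Fin r) ℂ)} (h : IsGeom R T) (h1 : T ⊆ T')
      (h2 : IsDenseIn T T') : IsGeom R T'

end Vale.Agent.P002.H934
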