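import Vale.Agent.P002.H934.Main
import Vale.Agent.P002.H934.DefsS

/-!
# Subquotients given by integral polynomial matrices
-/

namespace Vale.Agent.P002.H934

open Matrix NumberField Vale.Agent.P002R.Orb Vale.Agent.P002.H252

variable {ι κ : Type} {m n l r q d b : ℕ}

theorem list_mem {Z : Submodule ℂ (Fin n → ℂ)} {B : ι → Matrix (Fin n) (Fin n) ℂ}
    (hB : ∀ p, ∀ z ∈ Z, B p *ᵥ z ∈ Z) (u : List ι) (z : Fin n → ℂ) (hz : z ∈ Z) :
    (u.map B).prod *ᵥ z ∈ Z := by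
  induction u with
  | nil =>
    rw [List.map_nil, List.prod_nil, Matrix.one_mulVec]
    exact hz
  | cons p u ih =>
    rw [List.map_cons, List.prod_cons, ← Matrix.mulVec_mulVec]
    exact hB p _ ih

/-- The matrices of a subquotient, and an integral structure. -/
theorem sub_conj {Q : Type} {row : Q → Fin n → ℂ} {S : Matrix (Fin n) (Fin l) ℂ}
    {Z : Submodule ℂ (Fin n → ℂ)} (s : Sit Z row S r) (hc : ∀ z, s.c z = z.1)
    (X : ι → Matrix (Fin r) (Fin r) ℂ) (B : ι → Matrix (Fin n) (Fin n) ℂ) (χ : ι → ℂ)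
    (hB : ∀ p, ∀ z ∈ Z, B p *ᵥ z ∈ Z)
    (heq : ∀ p (z z' : Z), z'.1 = B p *ᵥ z.1 → X p *ᵥ s.e z = χ p • s.e z')
    (ρ' : Fin q → Q) (σ₁ : Fin q ⊕ Fin d ≃ Fin n) (σ₂ : Fin b ⊕ Fin r ≃ Fin d)
    (τ : Fin b → Fin l)
    (h1 : (Ep (Matrix.of fun i => row (ρ' i)) σ₁).det ≠ 0) (h2 : (S1 S σ₁ σ₂ τ).det ≠ 0) :
    ∃ T : (Matrix (Fin r) (Fin r) ℂ)ˣ,
      (∀ p, X p * T.1 = T.1 * ((χ p *
          ((Ep (Matrix.of fun i => row (ρ' i)) σ₁).det * (S1 S σ₁ σ₂ τ).det)⁻¹) •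
          (E1 S σ₁ σ₂ τ * B p * X1 (Matrix.of fun i => row (ρ' i)) σ₁ σ₂))) ∧
      ∀ L L₁ : IntermediateField ℚ ℂ, Lat L L₁ r →
        (∀ (u : List ι) i j, (E1 S σ₁ σ₂ τ * (u.map B).prod *
          X1 (Matrix.of fun i => row (ρ' i)) σ₁ σ₂) i j ∈ OO L) →
        ∃ P : (Matrix (Fin r) (Fin r) ℂ)ˣ, ∀ p, ∃ D : Matrix (Fin r) (Fin r) ℂ,
          (∀ i j, D i j ∈ OO L₁) ∧ X p * (T.1 * P.1) = (T.1 * P.1) * (χ p • D) := by
  classical
  obtain ⟨ac, hac⟩ : ∃ ac : List ι → Z → Z, ∀ u z, (ac u z).1 = (u.map B).prod *ᵥ z.1 :=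
    ⟨fun u z => ⟨_, list_mem hB u z.1 z.2⟩, fun u z => rfl⟩
  have heq' : ∀ p u z, X p *ᵥ s.e (ac u z) = χ p • s.e (ac (p :: u) z) := by
    intro p u z
    refine heq p _ _ ?_
    rw [hac, hac, List.map_cons, List.prod_cons, Matrix.mulVec_mulVec]
  have ac_nil : ∀ z, ac [] z = z := fun z => Subtype.ext (by
    rw [hac, List.map_nil, List.prod_nil, Matrix.one_mulVec])
  obtain ⟨T, hT1, hT2⟩ := s.exists_T ρ' σ₁ σ₂ τ h1 h2
  choose x hx hxe using hT2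
  obtain ⟨K, hK⟩ : ∃ K, K = X1 (Matrix.of fun i => row (ρ' i)) σ₁ σ₂ := ⟨_, rfl⟩
  obtain ⟨U, hU⟩ : ∃ U, U = E1 S σ₁ σ₂ τ := ⟨_, rfl⟩
  obtain ⟨d₁, hd₁⟩ : ∃ d₁, d₁ = (Ep (Matrix.of fun i => row (ρ' i)) σ₁).det := ⟨_, rfl⟩
  obtain ⟨d₂, hd₂⟩ : ∃ d₂, d₂ = (S1 S σ₁ σ₂ τ).det := ⟨_, rfl⟩
  rw [← hK] at hx ⊢
  rw [← hU] at hT1 ⊢
  rw [← hd₁] at h1 hxe ⊢
  rw [← hd₂] at h2 hT1 ⊢
  have key : ∀ (u : List ι) y,
      T.1 *ᵥ ((U * (u.map B).prod * K) *ᵥ y) = d₂ • s.e (ac u (x y)) := by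
    intro u y
    have h3 := hT1 (ac u (x y))
    rw [hc, hac, ← hc, hx] at h3
    rw [h3, Matrix.mulVec_smul, smul_smul, mul_inv_cancel₀ h2, one_smul]
    simp only [Matrix.mulVec_mulVec, Matrix.mul_assoc]
  refine ⟨T, fun p => Matrix.mulVec_injective (funext fun y => ?_), ?_⟩
  · have h3 : T.1 *ᵥ y = d₁⁻¹ • s.e (x y) := by
      rw [hxe, smul_smul, inv_mul_cancel₀ h1, one_smul]
    have h4 := key [p] y
    rw [List.map_cons, List.map_nil, List.prod_cons, List.prod_nil, Matrix.mul_one] at h4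
    have h5 := heq' p [] (x y)
    rw [ac_nil] at h5
    rw [← Matrix.mulVec_mulVec, ← Matrix.mulVec_mulVec, h3, Matrix.mulVec_smul, h5,
      Matrix.smul_mulVec, Matrix.mulVec_smul, h4, smul_smul, smul_smul]
    congr 1
    field_simp
  intro L L₁ hlat hint
  obtain ⟨z, hz⟩ : ∃ z : List ι × Fin r → Fin r → ℂ,
      ∀ p a, z p a = (U * (p.1.map B).prod * K) a p.2 := ⟨_, fun p a => rfl⟩
  obtain ⟨P₀, hP₀e, hP₀⟩ := hlat (Set.range z) (by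
    rintro _ ⟨p, rfl⟩ a
    rw [hz]
    exact hint p.1 a p.2)
  have hTz : ∀ p, T.1 *ᵥ z p = d₂ • s.e (ac p.1 (x (Pi.single p.2 1))) := by
    intro p
    rw [← key p.1, Matrix.mulVec_single_one]
    congr 1
    funext a
    rw [hz]
    rfl
  -- the lattice spans
  have hPu : IsUnit P₀ := by
    rw [← Matrix.mulVec_surjective_iff_isUnit]
    have h4 : ∀ i : Fin r, ∃ u, P₀ *ᵥ u = Pi.single i 1 := by
      intro i
      obtain ⟨u, -, hu⟩ := (hP₀ (z ([], i))).1 (Submodule.subset_span ⟨([], i), rfl⟩)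
      refine ⟨(d₁ * d₂)⁻¹ • u, ?_⟩
      rw [Matrix.mulVec_smul, ← hu]
      have h5 := hTz ([], i)
      rw [ac_nil, hxe, smul_smul, mul_comm d₂, ← Matrix.mulVec_smul] at h5
      have h6 := congrArg (fun v => (T⁻¹).1 *ᵥ v) h5
      change (T⁻¹).1 *ᵥ (T.1 *ᵥ _) = (T⁻¹).1 *ᵥ (T.1 *ᵥ _) at h6
      rw [Matrix.mulVec_mulVec, Matrix.mulVec_mulVec, T.inv_mul, Matrix.one_mulVec,
        Matrix.one_mulVec] at h6
      rw [h6, smul_smul, inv_mul_cancel₀ (mul_ne_zero h1 h2), one_smul]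
    choose u hu using h4
    intro v
    refine ⟨∑ i, v i • u i, ?_⟩
    rw [Matrix.mulVec_sum]
    have h5 : v = ∑ i, v i • (Pi.single i 1 : Fin r → ℂ) := by
      funext a
      simp [Finset.sum_apply, Pi.single_apply]
    conv_rhs => rw [h5]
    refine Finset.sum_congr rfl fun i _ => ?_
    rw [Matrix.mulVec_smul, hu]
  obtain ⟨P, hP⟩ := hPu
  have hstab : ∀ p, ∀ v ∈ Submodule.span (OO L₁) (Set.range z),
      ∃ v' ∈ Submodule.span (OO L₁) (Set.range z),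
      X p *ᵥ (T.1 *ᵥ v) = χ p • (T.1 *ᵥ v') := by
    intro p v hv
    induction hv using Submodule.span_induction with
    | mem v hv =>
      obtain ⟨k, rfl⟩ := hv
      refine ⟨z (p :: k.1, k.2), Submodule.subset_span ⟨_, rfl⟩, ?_⟩
      rw [hTz, hTz, Matrix.mulVec_smul, heq', smul_comm]
    | zero =>
      refine ⟨0, Submodule.zero_mem _, ?_⟩
      rw [Matrix.mulVec_zero, Matrix.mulVec_zero, smul_zero]
    | add u u' _ _ h h' =>
      obtain ⟨v, hv, h3⟩ := h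
      obtain ⟨v', hv', h3'⟩ := h'
      refine ⟨v + v', Submodule.add_mem _ hv hv', ?_⟩
      rw [Matrix.mulVec_add, Matrix.mulVec_add, Matrix.mulVec_add, h3, h3', smul_add]
    | smul t u _ h =>
      obtain ⟨v, hv, h3⟩ := h
      refine ⟨t • v, Submodule.smul_mem _ t hv, ?_⟩
      have h4 : ∀ y : Fin r → ℂ, t • y = (t : ℂ) • y := fun y => rfl
      rw [h4, h4, Matrix.mulVec_smul, Matrix.mulVec_smul, Matrix.mulVec_smul, h3, smul_comm]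
  refine ⟨P, fun p => ?_⟩
  have h3 : ∀ i : Fin r, ∃ a : Fin r → ℂ, (∀ j, a j ∈ OO L₁) ∧
      X p *ᵥ (T.1 *ᵥ (P.1 *ᵥ Pi.single i 1)) = χ p • (T.1 *ᵥ (P.1 *ᵥ a)) := by
    intro i
    obtain ⟨v', hv', h4⟩ := hstab p (P₀ *ᵥ Pi.single i 1) ((hP₀ _).2 ⟨_, fun j => by
      rw [Pi.single_apply]
      split_ifs
      · exact one_mem _
      · exact zero_mem _, rfl⟩)
    obtain ⟨a, ha, rfl⟩ := (hP₀ v').1 hv'
    refine ⟨a, ha, ?_⟩
    rw [← hP] at h4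
    exact h4
  choose a ha' ha using h3
  refine ⟨Matrix.of fun j i => a i j, fun i j => ha' j i, ?_⟩
  ext i j
  have h4 := congrFun (ha j) i
  rw [Matrix.mulVec_mulVec, Matrix.mulVec_mulVec, Matrix.mulVec_mulVec,
    Matrix.mulVec_single_one, Matrix.mul_assoc] at h4
  rw [Matrix.mul_smul]
  change (X p * (T.1 * P.1)) i j = χ p * ∑ k, (T.1 * P.1) i k * a j k
  exact h4

theorem prod_map (f : PZ κ m →+* ℂ) (B : ι → Matrix (Fin n) (Fin n) (PZ κ m)) (u : List ι) :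
    (u.map fun p => (B p).map f).prod = (u.map B).prod.map f := by
  induction u with
  | nil => rw [List.map_nil, List.map_nil, List.prod_nil, List.prod_nil,
      Matrix.map_one _ (map_zero _) (map_one _)]
  | cons p u ih => rw [List.map_cons, List.map_cons, List.prod_cons, List.prod_cons, ih,
      Matrix.map_mul]

/-- The matrices at a subquotient, from polynomials. -/
theorem sub_data (E : Set (Fin n → PZ κ m)) (S : Matrix (Fin n) (Fin l) (PZ κ m))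
    (B : ι → Matrix (Fin n) (Fin n) (PZ κ m)) (χ : ι → ℂ)
    {V : κ → SpecialLinearGroup (Fin m) ℂ} {X : ι → SpecialLinearGroup (Fin r) ℂ}
    (h : IsSubq E S B χ V X) :
    (∃ (q d b : ℕ) (ρ' : Fin q → E) (σ₁ : Fin q ⊕ Fin d ≃ Fin n)
      (σ₂ : Fin b ⊕ Fin r ≃ Fin d) (τ : Fin b → Fin l),
      ev V (Ep (Matrix.of fun i => (ρ' i).1) σ₁).det ≠ 0 ∧ ev V (S1 S σ₁ σ₂ τ).det ≠ 0) ∧
    ∀ (q d b : ℕ) (ρ' : Fin q → E) (σ₁ : Fin q ⊕ Fin d ≃ Fin n)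
      (σ₂ : Fin b ⊕ Fin r ≃ Fin d) (τ : Fin b → Fin l),
      ev V (Ep (Matrix.of fun i => (ρ' i).1) σ₁).det ≠ 0 → ev V (S1 S σ₁ σ₂ τ).det ≠ 0 →
    ∃ T : (Matrix (Fin r) (Fin r) ℂ)ˣ,
      (∀ p, (X p).1 * T.1 = T.1 * ((χ p *
          (ev V ((Ep (Matrix.of fun i => (ρ' i).1) σ₁).det * (S1 S σ₁ σ₂ τ).det))⁻¹) •
          (E1 S σ₁ σ₂ τ * B p * X1 (Matrix.of fun i => (ρ' i).1) σ₁ σ₂).map (ev V))) ∧
      ∀ L L₁ : IntermediateField ℚ ℂ, Lat L L₁ r → (∀ f : PZ κ m, ev V f ∈ OO L) →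
        ∃ P : (Matrix (Fin r) (Fin r) ℂ)ˣ, ∀ p, ∃ D : Matrix (Fin r) (Fin r) ℂ,
          (∀ i j, D i j ∈ OO L₁) ∧ (X p).1 * (T.1 * P.1) = (T.1 * P.1) * (χ p • D) := by
  classical
  obtain ⟨Z, e, hZ, he, hS, hB⟩ := h
  obtain ⟨s, hsc, hse⟩ : ∃ s : Sit Z (fun (a : E) j => ev V (a.1 j)) (S.map (ev V)) r,
      (∀ z, s.c z = z.1) ∧ ∀ z, s.e z = e z.1 := by
    refine ⟨⟨Z.subtype, Subtype.val_injective, fun z => ?_, e ∘ₗ Z.subtype, fun y => ?_,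
      fun z => ?_, fun v => ?_⟩, fun z => rfl, fun z => rfl⟩
    · constructor
      · rintro ⟨z, rfl⟩ a
        exact (hZ z.1).1 z.2 a.1 a.2
      · intro h
        exact ⟨⟨z, (hZ z).2 fun f hf => h ⟨f, hf⟩⟩, rfl⟩
    · have h1 : y ∈ Submodule.map e Z := by
        rw [he]
        exact Submodule.mem_top
      obtain ⟨z, hz, hzy⟩ := h1
      exact ⟨⟨z, hz⟩, hzy⟩
    · constructor
      · intro h
        exact (hS z.1).1 ⟨z.2, h⟩
      · rintro ⟨v, hv⟩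
        exact ((hS z.1).2 ⟨v, hv⟩).2
    · exact ⟨⟨_, ((hS _).2 ⟨v, rfl⟩).1⟩, rfl⟩
  have hEp : ∀ {q d : ℕ} (ρ' : Fin q → E) (σ₁ : Fin q ⊕ Fin d ≃ Fin n),
      (Ep (Matrix.of fun i => (fun (a : E) j => ev V (a.1 j)) (ρ' i)) σ₁).det =
        ev V (Ep (Matrix.of fun i => (ρ' i).1) σ₁).det := by
    intro q d ρ' σ₁
    rw [det_map']
    rfl
  have hS1 : ∀ {q d b : ℕ} (σ₁ : Fin q ⊕ Fin d ≃ Fin n)
      (σ₂ : Fin b ⊕ Fin r ≃ Fin d) (τ : Fin b → Fin l),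
      (S1 (S.map (ev V)) σ₁ σ₂ τ).det = ev V (S1 S σ₁ σ₂ τ).det := by
    intro q d b σ₁ σ₂ τ
    rw [det_map']
    rfl
  constructor
  · obtain ⟨q, d, b, ρ', σ₁, σ₂, τ, h1, h2⟩ := s.exists_pivots
    refine ⟨q, d, b, ρ', σ₁, σ₂, τ, ?_, ?_⟩
    · rw [← hEp]
      exact h1
    · rw [← hS1]
      exact h2
  intro q d b ρ' σ₁ σ₂ τ h1 h2
  have hmat : ∀ A : Matrix (Fin n) (Fin n) (PZ κ m),
      (E1 S σ₁ σ₂ τ * A * X1 (Matrix.of fun i => (ρ' i).1) σ₁ σ₂).map (ev V) =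
      E1 (S.map (ev V)) σ₁ σ₂ τ * A.map (ev V) *
        X1 (Matrix.of fun i => (fun (a : E) j => ev V (a.1 j)) (ρ' i)) σ₁ σ₂ := by
    intro A
    rw [Matrix.map_mul, Matrix.map_mul, E1_map, X1_map]
    rfl
  obtain ⟨T, hT, hL⟩ := sub_conj s hsc (fun p => (X p).1) (fun p => (B p).map (ev V)) χ
    (fun p z hz => (hB p z hz).1) (fun p z z' h => by
      rw [hse, hse, h]
      exact (hB p z.1 z.2).2) ρ' σ₁ σ₂ τ (by rw [hEp]; exact h1) (by rw [hS1]; exact h2)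
  refine ⟨T, fun p => ?_, fun L L₁ hlat hev => ?_⟩
  · have h3 := hT p
    rw [hmat, map_mul, ← hEp, ← hS1]
    exact h3
  · refine hL L L₁ hlat fun u i j => ?_
    rw [prod_map, ← hmat]
    exact hev _

theorem exists_L' [Finite ι] (L' : IntermediateField ℚ ℂ) (hL' : FiniteDimensional ℚ L')
    (χ : ι → ℂ) (hχ : ∀ p, IsIntegral ℤ (χ p)) :
    ∃ L : IntermediateField ℚ ℂ, FiniteDimensional ℚ L ∧ L' ≤ L ∧ ∀ p, χ p ∈ L := by
  obtain ⟨E, hE⟩ : ∃ E : IntermediateField ℚ ℂ, E = IntermediateField.adjoin ℚ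
      (Set.range χ) := ⟨_, rfl⟩
  have hfd : FiniteDimensional ℚ E := by
    rw [hE]
    have : Finite (Set.range χ) := Set.finite_range _
    refine IntermediateField.finiteDimensional_adjoin fun y hy => ?_
    obtain ⟨p, rfl⟩ := hy
    exact (hχ p).tower_top
  refine ⟨L' ⊔ E, inferInstance, le_sup_left, fun p => ?_⟩
  apply (le_sup_right : E ≤ L' ⊔ E)
  rw [hE]
  exact IntermediateField.subset_adjoin _ _ ⟨p, rfl⟩

theorem IsSubq.conj {E : Set (Fin n → PZ κ m)} {S : Matrix (Fin n) (Fin l) (PZ κ m)}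
    {B : ι → Matrix (Fin n) (Fin n) (PZ κ m)} {χ : ι → ℂ}
    {V : κ → SpecialLinearGroup (Fin m) ℂ} {X : ι → SpecialLinearGroup (Fin r) ℂ}
    (h : IsSubq E S B χ V X) (P : SpecialLinearGroup (Fin r) ℂ) :
    IsSubq E S B χ V fun p => P⁻¹ * X p * P := by
  obtain ⟨Z, e, hZ, he, hS, hB⟩ := h
  have hP1 : (P⁻¹).1 * P.1 = 1 := congrArg Subtype.val (inv_mul_cancel P)
  have hP2 : P.1 * (P⁻¹).1 = 1 := congrArg Subtype.val (mul_inv_cancel P)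
  refine ⟨Z, (P⁻¹).1.mulVecLin ∘ₗ e, hZ, ?_, fun z => ?_, fun p z hz => ⟨(hB p z hz).1, ?_⟩⟩
  · rw [eq_top_iff]
    intro y _
    have h1 : P.1 *ᵥ y ∈ Submodule.map e Z := by
      rw [he]
      exact Submodule.mem_top
    obtain ⟨z, hz, hzy⟩ := h1
    refine ⟨z, hz, ?_⟩
    rw [LinearMap.comp_apply, hzy, Matrix.mulVecLin_apply, Matrix.mulVec_mulVec, hP1,
      Matrix.one_mulVec]
  · rw [← hS, LinearMap.comp_apply, Matrix.mulVecLin_apply]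
    constructor
    · rintro ⟨hz, h1⟩
      have h2 := congrArg (fun v => P.1 *ᵥ v) h1
      change P.1 *ᵥ ((P⁻¹).1 *ᵥ e z) = P.1 *ᵥ 0 at h2
      rw [Matrix.mulVec_mulVec, hP2, Matrix.one_mulVec, Matrix.mulVec_zero] at h2
      exact ⟨hz, h2⟩
    · rintro ⟨hz, h1⟩
      rw [h1, Matrix.mulVec_zero]
      exact ⟨hz, rfl⟩
  · have h1 : (P⁻¹ * X p * P).1 = (P⁻¹).1 * (X p).1 * P.1 := rfl
    rw [h1, LinearMap.comp_apply, LinearMap.comp_apply, Matrix.mulVecLin_apply,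
      Matrix.mulVecLin_apply, Matrix.mulVec_mulVec, Matrix.mul_assoc _ P.1, hP2, Matrix.mul_one,
      ← Matrix.mulVec_mulVec, (hB p z hz).2, Matrix.mulVec_smul]

/-- **Density.** -/
theorem sub_dense [Finite ι] (E : Set (Fin n → PZ κ m)) (S : Matrix (Fin n) (Fin l) (PZ κ m))
    (B : ι → Matrix (Fin n) (Fin n) (PZ κ m)) (χ : ι → ℂ) (hχ : ∀ p, IsIntegral ℤ (χ p))
    (T : Set (κ → SpecialLinearGroup (Fin m) ℂ)) (Y : Set (ι → SpecialLinearGroup (Fin r) ℂ))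
    (hY : ∀ X ∈ Y, ∀ Q : SpecialLinearGroup (Fin r) ℂ, (fun p => Q⁻¹ * X p * Q) ∈ Y)
    (hU : ∀ V ∈ T, ∃ X ∈ Y, IsSubq E S B χ V X)
    (L' : IntermediateField ℚ ℂ) (hL' : FiniteDimensional ℚ L') (hT : IsDenseRep L' T) :
    ∃ L : IntermediateField ℚ ℂ, FiniteDimensional ℚ L ∧
      IsDenseRep L {X ∈ Y | ∃ V ∈ T, IsSubq E S B χ V X} := by
  classical
  obtain ⟨L, hLf, hLL, hL⟩ := exists_L' L' hL' χ hχ
  obtain ⟨L₁, hL₁f, hLL₁, hlat⟩ := exists_lat r L hLf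
  refine ⟨L₁, hL₁f, ?_⟩
  intro F hvan X₀ hX₀
  obtain ⟨hX₀Y, V₀, hV₀, hX₀d⟩ := hX₀
  obtain ⟨q, d, b, ρ', σ₁, σ₂, τ, h1, h2⟩ := (sub_data E S B χ hX₀d).1
  obtain ⟨δ, hδ⟩ : ∃ δ, δ =
    (Ep (Matrix.of fun i => (ρ' i).1) σ₁).det * (S1 S σ₁ σ₂ τ).det := ⟨_, rfl⟩
  obtain ⟨N, hN⟩ : ∃ N : ι → Matrix (Fin r) (Fin r) (PZ κ m), ∀ p, N p =
    E1 S σ₁ σ₂ τ * B p * X1 (Matrix.of fun i => (ρ' i).1) σ₁ σ₂ := ⟨_, fun _ => rfl⟩
  have hδ₀ : ev V₀ δ ≠ 0 := by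
    rw [hδ, map_mul]
    exact mul_ne_zero h1 h2
  obtain ⟨NV, hNV⟩ : ∃ NV : (κ → SpecialLinearGroup (Fin m) ℂ) → ι → Matrix (Fin r) (Fin r) ℂ,
      ∀ V p, NV V p = (χ p * (ev V δ)⁻¹) • (N p).map (ev V) := ⟨_, fun _ _ => rfl⟩
  have model : ∀ (V : κ → SpecialLinearGroup (Fin m) ℂ) (X : ι → SpecialLinearGroup (Fin r) ℂ),
      IsSubq E S B χ V X → ev V δ ≠ 0 →
      ∃ T₁ : (Matrix (Fin r) (Fin r) ℂ)ˣ, ∀ p, (X p).1 * T₁.1 = T₁.1 * NV V p := by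
    intro V X hX hd
    have hd12 := hd
    rw [hδ, map_mul] at hd12
    obtain ⟨T₁, hT₁, _⟩ := (sub_data E S B χ hX).2 q d b ρ' σ₁ σ₂ τ
      (left_ne_zero_of_mul hd12) (right_ne_zero_of_mul hd12)
    refine ⟨T₁, fun p => ?_⟩
    have h3 := hT₁ p
    rw [← hδ] at h3
    rw [hNV, hN]
    exact h3
  obtain ⟨T₀, hT₀⟩ := model V₀ X₀ hX₀d hδ₀
  -- polynomials
  obtain ⟨G, M, hG⟩ := exists_hom
    (fun t : ι × Fin r × Fin r => ∑ i, ∑ j, MvPolynomial.C (T₀.1 t.2.1 i) *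
      (MvPolynomial.C (χ t.1) *
      MvPolynomial.map (Int.castRingHom ℂ) (N t.1 i j)) * MvPolynomial.C ((T₀⁻¹).1 j t.2.2))
    (MvPolynomial.map (Int.castRingHom ℂ) δ) F
  have key : ∀ V, ev V δ ≠ 0 → MvPolynomial.eval (pt V) G = (ev V δ) ^ M *
      MvPolynomial.eval (fun t : ι × Fin r × Fin r =>
        (T₀.1 * NV V t.1 * (T₀⁻¹).1) t.2.1 t.2.2) F := by
    intro V hd
    have hd' := hd
    rw [← eval_map_ev] at hd'
    rw [hG (pt V) hd', eval_map_ev]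
    congr 2
    refine congrArg MvPolynomial.eval (funext fun t => ?_)
    simp only [map_sum, map_mul, MvPolynomial.eval_C, eval_map_ev, Matrix.mul_apply,
      Finset.sum_mul, Finset.mul_sum, hNV, Matrix.smul_apply, Matrix.map_apply, smul_eq_mul]
    rw [Finset.sum_comm]
    refine Finset.sum_congr rfl fun i _ => Finset.sum_congr rfl fun j _ => ?_
    ring
  obtain ⟨H, hH⟩ : ∃ H : MvPolynomial (κ × Fin m × Fin m) ℂ, H = G *
      MvPolynomial.map (Int.castRingHom ℂ) δ := ⟨_, rfl⟩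
  have hHT : ∀ V ∈ T, value H V = 0 := by
    refine hT H fun V hV hVi => ?_
    rw [value_eq, hH, map_mul, eval_map_ev]
    by_cases hd : ev V δ = 0
    · rw [hd, mul_zero]
    obtain ⟨X, hXY, hX⟩ := hU V hV
    obtain ⟨T₁, hT₁⟩ := model V X hX hd
    -- the integral model
    obtain ⟨Q₁, hQ₁⟩ : ∃ Q : SpecialLinearGroup (Fin r) ℂ,
        IsIntegralRep L₁ fun p => Q⁻¹ * X p * Q := by
      obtain ⟨⟨q, d, b, ρ', σ₁, σ₂, τ, h1, h2⟩, hall⟩ := sub_data E S B χ hX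
      obtain ⟨T, hT, hLat⟩ := hall q d b ρ' σ₁ σ₂ τ h1 h2
      have hev : ∀ f : PZ κ m, ev V f ∈ OO L := by
        intro f
        refine value_mem (s := OO L) f V fun p i j => ?_
        obtain ⟨a, ha⟩ := hVi p i j
        rw [ha]
        exact OO_mono hLL (cO_mem a)
      obtain ⟨P, hP⟩ := hLat L L₁ hlat hev
      choose D hD hPD using hP
      obtain ⟨Q, hQ⟩ := exists_sl (T * P)
      refine ⟨Q, fun p i j => ?_⟩
      have h3 : (Q⁻¹ * X p * Q).1 = χ p • D p := by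
        refine hQ _ _ ?_
        rw [Units.val_mul]
        exact hPD p
      obtain ⟨a, ha⟩ := exists_cO (L := L₁) (z := (Q⁻¹ * X p * Q).1 i j) (by
        rw [h3]
        exact mul_mem (⟨hLL₁ (hL p), hχ p⟩ : _ ∈ OO L₁) (hD p i j))
      exact ⟨a, ha.symm⟩
    obtain ⟨Z, hZ⟩ : ∃ Z : ι → SpecialLinearGroup (Fin r) ℂ, Z = fun p => Q₁⁻¹ * X p * Q₁ :=
      ⟨_, rfl⟩
    rw [← hZ] at hQ₁
    have h3 : ∀ T : (Matrix (Fin r) (Fin r) ℂ)ˣ, MvPolynomial.eval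
        (fun q : ι × Fin r × Fin r => (T.1 * (Z q.1).1 * (T⁻¹).1) q.2.1 q.2.2) F = 0 := by
      intro T
      refine Vale.Agent.P002.H306.dens (s := 0) (fun _ p => (Z p).1) (fun y i => i.elim0)
        Set.univ infU F (fun S y _ => ?_) T fun i => i.elim0
      obtain ⟨S', hS'⟩ : ∃ S' : SpecialLinearGroup (Fin r) ℂ,
        S' = SpecialLinearGroup.map (Int.castRingHom ℂ) S := ⟨_, rfl⟩
      have h4 : (fun p => (Q₁ * S'⁻¹)⁻¹ * X p * (Q₁ * S'⁻¹)) =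
          fun p => S' * Z p * S'⁻¹ := by
        funext p
        rw [hZ]
        group
      have h5 : value F (fun p => S' * Z p * S'⁻¹) = 0 := by
        refine hvan _ ⟨?_, V, hV, ?_⟩ ?_
        · rw [← h4]
          exact hY X hXY _
        · rw [← h4]
          exact hX.conj _
        · intro p i j
          have h6 : (S' * Z p * S'⁻¹).1 i j ∈ OO L₁ := by
            have h7 : ∀ a b, (S'.1 a b) ∈ OO L₁ ∧ (S'⁻¹).1 a b ∈ OO L₁ := by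
              intro a b
              have h8 : S'⁻¹ = SpecialLinearGroup.map (Int.castRingHom ℂ) S⁻¹ := by
                rw [hS', map_inv]
              constructor
              · rw [hS']
                exact intCast_mem (OO L₁) (S.1 a b)
              · rw [h8]
                exact intCast_mem (OO L₁) ((S⁻¹).1 a b)
            change ∑ b, (∑ a, S'.1 i a * (Z p).1 a b) * (S'⁻¹).1 b j ∈ OO L₁
            refine sum_mem fun b _ => mul_mem (sum_mem fun a _ => mul_mem (h7 _ _).1 ?_) (h7 _ _).2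
            obtain ⟨c, hc⟩ := hQ₁ p a b
            rw [hc]
            exact cO_mem c
          obtain ⟨a, ha⟩ := exists_cO h6
          exact ⟨a, ha.symm⟩
      rw [value_eq] at h5
      rw [← h5]
      refine congrArg (fun g => MvPolynomial.eval g F) (funext fun t => ?_)
      have h6 : (S⁻¹).1.map (Int.castRingHom ℂ) = (S'⁻¹).1 := by
        rw [hS', ← map_inv]
        rfl
      change (S.1.map (Int.castRingHom ℂ) * (Z t.1).1 * (S⁻¹).1.map (Int.castRingHom ℂ))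
        t.2.1 t.2.2 = (S'.1 * (Z t.1).1 * (S'⁻¹).1) t.2.1 t.2.2
      rw [h6, hS']
      rfl
    obtain ⟨U₁, hU₁⟩ : ∃ U₁ : (Matrix (Fin r) (Fin r) ℂ)ˣ, U₁.1 = Q₁.1 ∧ (U₁⁻¹).1 = (Q₁⁻¹).1 :=
      ⟨⟨Q₁.1, (Q₁⁻¹).1, congrArg Subtype.val (mul_inv_cancel Q₁),
        congrArg Subtype.val (inv_mul_cancel Q₁)⟩, rfl, rfl⟩
    have h4 := h3 (T₀ * T₁⁻¹ * U₁)
    have h5 : ∀ p, (T₀ * T₁⁻¹ * U₁).1 * (Z p).1 * ((T₀ * T₁⁻¹ * U₁)⁻¹).1 =
        T₀.1 * NV V p * (T₀⁻¹).1 := by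
      intro p
      have h6 : (Z p).1 = (U₁⁻¹).1 * (X p).1 * U₁.1 := by
        rw [hU₁.1, hU₁.2, hZ]
        rfl
      have h7 : (X p).1 = T₁.1 * NV V p * (T₁⁻¹).1 := by
        rw [← hT₁, Matrix.mul_assoc, T₁.mul_inv, Matrix.mul_one]
      rw [h6, h7, _root_.mul_inv_rev, _root_.mul_inv_rev, inv_inv]
      simp only [Units.val_mul, Matrix.mul_assoc]
      rw [← Matrix.mul_assoc U₁.1 (U₁⁻¹).1, U₁.mul_inv, Matrix.one_mul,
        ← Matrix.mul_assoc (T₁⁻¹).1 T₁.1, T₁.inv_mul, Matrix.one_mul,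
        ← Matrix.mul_assoc U₁.1 (U₁⁻¹).1, U₁.mul_inv, Matrix.one_mul,
        ← Matrix.mul_assoc (T₁⁻¹).1 T₁.1, T₁.inv_mul, Matrix.one_mul]
    simp only [h5] at h4
    rw [key V hd, h4, mul_zero, zero_mul]
  have h3 := hHT V₀ hV₀
  rw [value_eq, hH, map_mul, eval_map_ev, key V₀ hδ₀] at h3
  have h5 : ∀ p, T₀.1 * NV V₀ p * (T₀⁻¹).1 = (X₀ p).1 := by
    intro p
    rw [← hT₀, Matrix.mul_assoc, T₀.mul_inv, Matrix.mul_one]
  simp only [h5] at h3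
  rcases mul_eq_zero.1 h3 with h4 | h4
  · rcases mul_eq_zero.1 h4 with h6 | h6
    · exact absurd h6 (pow_ne_zero _ hδ₀)
    · exact h6
  · exact absurd h4 hδ₀

end Vale.Agent.P002.H934
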