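import Vale.Agent.P002.H934.Final
import Vale.Agent.P002.H934.DefsG
import Vale.Agent.P002.H934.Sub

/-!
# Closure properties of the sets with dense integral representations
-/

namespace Vale.Agent.P002.H934

open Matrix NumberField Vale.Agent.P002R.Orb Vale.Agent.P002.H326J Vale.Agent.P002.H2
  Vale.Agent.P002.H252

variable {ι κ : Type} {m n r s s' : ℕ} {R : Set (FreeGroup ι)} {R' : Set (FreeGroup κ)}

theorem isInt_iff {L : IntermediateField ℚ ℂ} {X : ι → SpecialLinearGroup (Fin r) ℂ} :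
    IsIntegralRep L X ↔ ∀ p i j, (X p).1 i j ∈ OO L :=
  ⟨fun h p i j => by
    obtain ⟨a, ha⟩ := h p i j
    rw [ha]
    exact cO_mem a, fun h p i j => by
    obtain ⟨a, ha⟩ := exists_cO (h p i j)
    exact ⟨a, ha.symm⟩⟩

theorem isInt_mono {L L₁ : IntermediateField ℚ ℂ} (h : L ≤ L₁)
    {X : ι → SpecialLinearGroup (Fin r) ℂ} (hX : IsIntegralRep L X) : IsIntegralRep L₁ X :=
  isInt_iff.2 fun p i j => OO_mono h (isInt_iff.1 hX p i j)

theorem dense_mono {L L₁ : IntermediateField ℚ ℂ} (h : L ≤ L₁)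
    {T : Set (ι → SpecialLinearGroup (Fin r) ℂ)} (hT : IsDenseRep L T) : IsDenseRep L₁ T :=
  fun F hF => hT F fun X hX hXi => hF X hX (isInt_mono h hXi)

theorem dense_open {L : IntermediateField ℚ ℂ} {T : Set (ι → SpecialLinearGroup (Fin r) ℂ)}
    (hT : IsDenseRep L T) (P : Set (MvPolynomial (ι × Fin r × Fin r) ℂ)) :
    IsDenseRep L (OpenIn T P) := by
  intro F hF X hX
  obtain ⟨hXT, F₀, hF₀, hX₀⟩ := hX
  have h1 := hT (F * F₀) (fun V hV hVi => by
    rw [value_eq, map_mul]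
    by_cases h0 : MvPolynomial.eval (pt V) F₀ = 0
    · rw [h0, mul_zero]
    · have h2 := hF V ⟨hV, F₀, hF₀, h0⟩ hVi
      rw [value_eq] at h2
      rw [h2, zero_mul]) X hXT
  rw [value_eq, map_mul] at h1
  exact (mul_eq_zero.1 h1).resolve_right hX₀

theorem dense_closure {L : IntermediateField ℚ ℂ} {T T' : Set (ι → SpecialLinearGroup (Fin r) ℂ)}
    (hT : IsDenseRep L T) (h1 : T ⊆ T') (h2 : IsDenseIn T T') : IsDenseRep L T' :=
  fun F hF => h2 F (hT F fun X hX hXi => hF X (h1 hX) hXi)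

theorem dense_union {L : IntermediateField ℚ ℂ} {T T' : Set (ι → SpecialLinearGroup (Fin r) ℂ)}
    (hT : IsDenseRep L T) (hT' : IsDenseRep L T') : IsDenseRep L (T ∪ T') := by
  intro F hF X hX
  rcases hX with hX | hX
  · exact hT F (fun V hV hVi => hF V (Or.inl hV) hVi) X hX
  · exact hT' F (fun V hV hVi => hF V (Or.inr hV) hVi) X hX

theorem dense_point {L : IntermediateField ℚ ℂ} {X : ι → SpecialLinearGroup (Fin r) ℂ}
    (hX : IsIntegralRep L X) : IsDenseRep L {X} := by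
  rintro F hF V rfl
  exact hF V rfl hX

theorem dense_image {L : IntermediateField ℚ ℂ} {T : Set (κ → SpecialLinearGroup (Fin m) ℂ)}
    (hT : IsDenseRep L T) (Φ : ι × Fin r × Fin r → MvPolynomial (κ × Fin m × Fin m) ℤ)
    (hΦ : ∀ V ∈ T, ∃ X : ι → SpecialLinearGroup (Fin r) ℂ,
      ∀ p i j, (X p).1 i j = value (Φ (p, i, j)) V) :
    IsDenseRep L {X : ι → SpecialLinearGroup (Fin r) ℂ | ∃ V ∈ T,
      ∀ p i j, (X p).1 i j = value (Φ (p, i, j)) V} := by
  intro F hF X hX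
  obtain ⟨V, hV, hXV⟩ := hX
  have key : ∀ (V : κ → SpecialLinearGroup (Fin m) ℂ) (X : ι → SpecialLinearGroup (Fin r) ℂ),
      (∀ p i j, (X p).1 i j = value (Φ (p, i, j)) V) →
      value (MvPolynomial.bind₁ (fun t => MvPolynomial.map (Int.castRingHom ℂ) (Φ t)) F) V =
        value F X := by
    intro V X h
    rw [value_eq, value_eq, MvPolynomial.eval, MvPolynomial.eval₂Hom_bind₁]
    refine congrArg (fun g => MvPolynomial.eval g F) (funext fun t => ?_)
    change MvPolynomial.eval (pt V) (MvPolynomial.map (Int.castRingHom ℂ) (Φ t)) = (X t.1).1 _ _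
    rw [eval_map_ev, h]
    rfl
  rw [← key V X hXV]
  refine hT _ (fun V hV hVi => ?_) V hV
  obtain ⟨X, hX⟩ := hΦ V hV
  rw [key V X hX]
  refine hF X ⟨V, hV, hX⟩ (isInt_iff.2 fun p i j => ?_)
  rw [hX]
  exact value_mem (s := OO L) _ V (isInt_iff.1 hVi)

theorem dense_conj {L : IntermediateField ℚ ℂ} {T : Set (ι → SpecialLinearGroup (Fin r) ℂ)}
    (hT : IsDenseRep L T) : IsDenseRep L {X | ∃ V ∈ T, ∃ g, ∀ p, X p = g * V p * g⁻¹} := by
  intro F hF X hX
  obtain ⟨V, hV, g, hg⟩ := hX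
  -- for integral `V`
  have h1 : ∀ V ∈ T, IsIntegralRep L V → ∀ T : (Matrix (Fin r) (Fin r) ℂ)ˣ, MvPolynomial.eval
      (fun q : ι × Fin r × Fin r => (T.1 * (V q.1).1 * (T⁻¹).1) q.2.1 q.2.2) F = 0 := by
    intro V hV hVi T
    refine Vale.Agent.P002.H306.dens (s := 0) (fun _ p => (V p).1) (fun y i => i.elim0)
      Set.univ infU F (fun S y _ => ?_) T fun i => i.elim0
    obtain ⟨S', hS'⟩ : ∃ S' : SpecialLinearGroup (Fin r) ℂ,
      S' = SpecialLinearGroup.map (Int.castRingHom ℂ) S := ⟨_, rfl⟩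
    have h5 : value F (fun p => S' * V p * S'⁻¹) = 0 := by
      refine hF _ ⟨V, hV, S', fun p => rfl⟩ (isInt_iff.2 fun p i j => ?_)
      have h7 : ∀ a b, (S'.1 a b) ∈ OO L ∧ (S'⁻¹).1 a b ∈ OO L := by
        intro a b
        have h8 : S'⁻¹ = SpecialLinearGroup.map (Int.castRingHom ℂ) S⁻¹ := by
          rw [hS', map_inv]
        constructor
        · rw [hS']
          exact intCast_mem (OO L) (S.1 a b)
        · rw [h8]
          exact intCast_mem (OO L) ((S⁻¹).1 a b)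
      change ∑ b, (∑ a, S'.1 i a * (V p).1 a b) * (S'⁻¹).1 b j ∈ OO L
      exact sum_mem fun b _ => mul_mem (sum_mem fun a _ => mul_mem (h7 _ _).1
        (isInt_iff.1 hVi p a b)) (h7 _ _).2
    rw [value_eq] at h5
    rw [← h5]
    refine congrArg (fun g => MvPolynomial.eval g F) (funext fun t => ?_)
    have h6 : (S⁻¹).1.map (Int.castRingHom ℂ) = (S'⁻¹).1 := by
      rw [hS', ← map_inv]
      rfl
    change (S.1.map (Int.castRingHom ℂ) * (V t.1).1 * (S⁻¹).1.map (Int.castRingHom ℂ))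
      t.2.1 t.2.2 = (S'.1 * (V t.1).1 * (S'⁻¹).1) t.2.1 t.2.2
    rw [h6, hS']
    rfl
  -- the polynomial for the fixed `g`
  have key : ∀ V : ι → SpecialLinearGroup (Fin r) ℂ,
      value (MvPolynomial.bind₁ (fun t : ι × Fin r × Fin r => ∑ b, ∑ a,
        MvPolynomial.C (g.1 t.2.1 a) * MvPolynomial.X (t.1, a, b) *
          MvPolynomial.C ((g⁻¹).1 b t.2.2)) F) V =
      MvPolynomial.eval (fun t : ι × Fin r × Fin r => (g.1 * (V t.1).1 * (g⁻¹).1) t.2.1 t.2.2)
        F := by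
    intro V
    rw [value_eq, MvPolynomial.eval, MvPolynomial.eval₂Hom_bind₁]
    refine congrArg (fun g => MvPolynomial.eval g F) (funext fun t => ?_)
    change MvPolynomial.eval (pt V) (∑ b, ∑ a, _) = _
    simp only [map_sum, map_mul, MvPolynomial.eval_C, MvPolynomial.eval_X, Matrix.mul_apply,
      Finset.sum_mul]
    rfl
  have h2 : value F X = MvPolynomial.eval
      (fun t : ι × Fin r × Fin r => (g.1 * (V t.1).1 * (g⁻¹).1) t.2.1 t.2.2) F := by
    rw [value_eq]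
    refine congrArg (fun g => MvPolynomial.eval g F) (funext fun t => ?_)
    change (X t.1).1 _ _ = _
    rw [hg]
    rfl
  rw [h2, ← key]
  refine hT _ (fun V hV hVi => ?_) V hV
  rw [key]
  exact h1 V hV hVi ⟨g.1, (g⁻¹).1, congrArg Subtype.val (mul_inv_cancel g),
    congrArg Subtype.val (inv_mul_cancel g)⟩

/-- The block matrix. -/
def blk (A : Matrix (Fin m) (Fin m) ℂ) (B : Matrix (Fin n) (Fin n) ℂ) :
    Matrix (Fin (m + n)) (Fin (m + n)) ℂ :=
  (Matrix.fromBlocks A 0 0 B).submatrix finSumFinEquiv.symm finSumFinEquiv.symm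

theorem blk_det (A : SpecialLinearGroup (Fin m) ℂ) (B : SpecialLinearGroup (Fin n) ℂ) :
    (blk A.1 B.1).det = 1 := by
  rw [blk, Matrix.det_submatrix_equiv_self, Matrix.det_fromBlocks_zero₂₁, A.2, B.2, mul_one]

theorem blk_mem (s : Subring ℂ) (A : Matrix (Fin m) (Fin m) ℂ) (B : Matrix (Fin n) (Fin n) ℂ)
    (hA : ∀ i j, A i j ∈ s) (hB : ∀ i j, B i j ∈ s) (i j : Fin (m + n)) : blk A B i j ∈ s := by
  rw [blk, Matrix.submatrix_apply]
  rcases finSumFinEquiv.symm i with a | a <;> rcases finSumFinEquiv.symm j with b | b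
  · exact hA a b
  · exact zero_mem s
  · exact zero_mem s
  · exact hB a b

theorem dense_sum {L : IntermediateField ℚ ℂ} {T : Set (ι → SpecialLinearGroup (Fin m) ℂ)}
    {T' : Set (ι → SpecialLinearGroup (Fin n) ℂ)} (hT : IsDenseRep L T)
    (hT' : IsDenseRep L T') :
    IsDenseRep L {X : ι → SpecialLinearGroup (Fin (m + n)) ℂ | ∃ V ∈ T, ∃ V' ∈ T', ∀ p,
      (X p).1 = (Matrix.fromBlocks (V p).1 0 0 (V' p).1).submatrix finSumFinEquiv.symm
        finSumFinEquiv.symm} := by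
  intro F hF X hX
  obtain ⟨V, hV, V', hV', hXV⟩ := hX
  obtain ⟨E, hE⟩ : ∃ E : (ι → SpecialLinearGroup (Fin m) ℂ) →
      (ι → SpecialLinearGroup (Fin n) ℂ) → ℂ, ∀ V V', E V V' = MvPolynomial.eval
      (fun t : ι × Fin (m + n) × Fin (m + n) => blk (V t.1).1 (V' t.1).1 t.2.1 t.2.2) F :=
    ⟨_, fun _ _ => rfl⟩
  have hval : ∀ V V', ∀ X : ι → SpecialLinearGroup (Fin (m + n)) ℂ,
      (∀ p, (X p).1 = blk (V p).1 (V' p).1) → value F X = E V V' := by
    intro V V' X h
    rw [value_eq, hE]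
    refine congrArg (fun g => MvPolynomial.eval g F) (funext fun t => ?_)
    change (X t.1).1 _ _ = _
    rw [h]
  -- both integral
  have h1 : ∀ V ∈ T, ∀ V' ∈ T', IsIntegralRep L V → IsIntegralRep L V' → E V V' = 0 := by
    intro V hV V' hV' hVi hVi'
    rw [← hval V V' (fun p => ⟨blk (V p).1 (V' p).1, blk_det _ _⟩) fun p => rfl]
    exact hF _ ⟨V, hV, V', hV', fun p => rfl⟩ (isInt_iff.2 fun p i j =>
      blk_mem (OO L) _ _ (isInt_iff.1 hVi p) (isInt_iff.1 hVi' p) i j)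
  -- polynomials in the second variable
  have h2 : ∀ V ∈ T, ∀ V' ∈ T', IsIntegralRep L V → E V V' = 0 := by
    intro V hV V' hV' hVi
    obtain ⟨G, hG⟩ : ∃ G : MvPolynomial (ι × Fin n × Fin n) ℂ, ∀ V', value G V' = E V V' := by
      refine ⟨MvPolynomial.bind₁ (fun t : ι × Fin (m + n) × Fin (m + n) =>
        (Matrix.fromBlocks ((V t.1).1.map MvPolynomial.C) 0 0
          (Matrix.of fun i j => MvPolynomial.X (t.1, i, j)) :
          Matrix (Fin m ⊕ Fin n) (Fin m ⊕ Fin n) (MvPolynomial (ι × Fin n × Fin n) ℂ))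
          (finSumFinEquiv.symm t.2.1) (finSumFinEquiv.symm t.2.2)) F, fun V' => ?_⟩
      rw [value_eq, hE, MvPolynomial.eval, MvPolynomial.eval₂Hom_bind₁]
      refine congrArg (fun g => MvPolynomial.eval g F) (funext fun t => ?_)
      rw [blk, Matrix.submatrix_apply]
      change MvPolynomial.eval (pt V') _ = _
      rcases finSumFinEquiv.symm t.2.1 with a | a <;> rcases finSumFinEquiv.symm t.2.2 with b | b
      · exact MvPolynomial.eval_C _
      · exact map_zero _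
      · exact map_zero _
      · exact MvPolynomial.eval_X _
    rw [← hG]
    refine hT' G (fun V' hV' hVi' => ?_) V' hV'
    rw [hG]
    exact h1 V hV V' hV' hVi hVi'
  -- polynomials in the first variable
  obtain ⟨G, hG⟩ : ∃ G : MvPolynomial (ι × Fin m × Fin m) ℂ, ∀ V, value G V = E V V' := by
    refine ⟨MvPolynomial.bind₁ (fun t : ι × Fin (m + n) × Fin (m + n) =>
      (Matrix.fromBlocks (Matrix.of fun i j => MvPolynomial.X (t.1, i, j)) 0 0
        ((V' t.1).1.map MvPolynomial.C) :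
        Matrix (Fin m ⊕ Fin n) (Fin m ⊕ Fin n) (MvPolynomial (ι × Fin m × Fin m) ℂ))
        (finSumFinEquiv.symm t.2.1) (finSumFinEquiv.symm t.2.2)) F, fun V => ?_⟩
    rw [value_eq, hE, MvPolynomial.eval, MvPolynomial.eval₂Hom_bind₁]
    refine congrArg (fun g => MvPolynomial.eval g F) (funext fun t => ?_)
    rw [blk, Matrix.submatrix_apply]
    change MvPolynomial.eval (pt V) _ = _
    rcases finSumFinEquiv.symm t.2.1 with a | a <;> rcases finSumFinEquiv.symm t.2.2 with b | b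
    · exact MvPolynomial.eval_X _
    · exact map_zero _
    · exact map_zero _
    · exact MvPolynomial.eval_C _
  rw [hval V V' X hXV, ← hG]
  refine hT G (fun V hV hVi => ?_) V hV
  rw [hG]
  exact h2 V hV V' hV' hVi

theorem openIn_one (T : Set (ι → SpecialLinearGroup (Fin r) ℂ)) : OpenIn T {1} = T := by
  ext X
  constructor
  · exact fun h => h.1
  · intro h
    refine ⟨h, 1, rfl, ?_⟩
    rw [value_eq, map_one]
    exact one_ne_zero

theorem dense_direct [Finite ι] {T : Set (κ → SpecialLinearGroup (Fin m) ℂ)}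
    (h : ∃ L : IntermediateField ℚ ℂ, FiniteDimensional ℚ L ∧ IsDenseRep L T)
    (π : PresentedGroup R' →* PresentedGroup R) (hπ : Function.Surjective π) (hN : π.ker.FG)
    (χ : PresentedGroup R →* ℂˣ) (hχ : ∀ g, IsIntegral ℤ (χ g).1)
    (w' : Fin s → FreeGroup κ) (C' : Fin s → SpecialLinearGroup (Fin m) ℂ)
    (hT : ∀ V ∈ T, ∀ j, IsConj (C' j) (FreeGroup.lift V (w' j)))
    (Y : Set (ι → SpecialLinearGroup (Fin r) ℂ))
    (hY : ∀ X ∈ Y, ∀ g, (fun p => g⁻¹ * X p * g) ∈ Y)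
    (hU : ∀ V ∈ T, ∃ X, X ∈ DISet π w' χ {V} Y) :
    ∃ L : IntermediateField ℚ ℂ, FiniteDimensional ℚ L ∧ IsDenseRep L (DISet π w' χ T Y) := by
  obtain ⟨L', hL', hd⟩ := h
  obtain ⟨n, φ, hφ⟩ := exists_phi hN
  have h1 := gdi_dense π hπ (Conjs fun j => PresentedGroup.mk R' (w' j))
    (fun g x hx => conjs_stable _ g x hx) χ hχ φ hφ T {1} Y hY (fun V hV => by
      obtain ⟨X, hXY, V', hV', hX⟩ := hU V hV.1
      have h1 : V' = V := hV'
      rw [h1] at hX
      exact ⟨X, hXY, hX⟩)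
    (fun x hx => by
      obtain ⟨k, hk⟩ := rank_const w' C' x hx
      exact ⟨k, fun V hV => hk V (hT V hV.1)⟩) L' hL' hd
  rw [openIn_one] at h1
  exact h1

/-- **The members of the class have dense integral representations.** -/
theorem IsGeom.hasDense {ι : Type} {R : Set (FreeGroup ι)} {r : ℕ}
    {T : Set (ι → SpecialLinearGroup (Fin r) ℂ)} (h : IsGeom R T) :
    ∃ L : IntermediateField ℚ ℂ, FiniteDimensional ℚ L ∧ IsDenseRep L T := by
  induction h with
  | multi R w C hC D hD => exact main_multi _ w C hC _ D hD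
  | typed R w C hC P B hB hT =>
    obtain ⟨L, hL, -, h⟩ := uniform_open w C hC P B hB hT
    exact ⟨L, hL, h⟩
  | point R X L hL hX => exact ⟨L, hL, dense_point hX⟩
  | direct _ π hπ hN χ hχ w' C' hT Y hY hU ih =>
    exact dense_direct ih π hπ hN χ hχ w' C' hT Y hY hU
  | subq R _ E S B c hc Y hY hU ih =>
    obtain ⟨L, hL, h⟩ := ih
    exact sub_dense E S B c hc _ Y hY hU L hL h
  | image R _ Φ hΦ ih =>
    obtain ⟨L, hL, h⟩ := ih
    exact ⟨L, hL, dense_image h Φ hΦ⟩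
  | sum _ _ ih ih' =>
    obtain ⟨L, hL, h⟩ := ih
    obtain ⟨L', hL', h'⟩ := ih'
    exact ⟨L ⊔ L', inferInstance, dense_sum (dense_mono le_sup_left h)
      (dense_mono le_sup_right h')⟩
  | conj _ ih =>
    obtain ⟨L, hL, h⟩ := ih
    exact ⟨L, hL, dense_conj h⟩
  | opn _ P ih =>
    obtain ⟨L, hL, h⟩ := ih
    exact ⟨L, hL, dense_open h P⟩
  | union _ _ ih ih' =>
    obtain ⟨L, hL, h⟩ := ih
    obtain ⟨L', hL', h'⟩ := ih'
    exact ⟨L ⊔ L', inferInstance, dense_union (dense_mono le_sup_left h)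
      (dense_mono le_sup_right h')⟩
  | dense _ h1 h2 ih =>
    obtain ⟨L, hL, h⟩ := ih
    exact ⟨L, hL, dense_closure h h1 h2⟩

end Vale.Agent.P002.H934
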