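import Vale.Agent.P002.H934.Defs

/-!
# Direct images: cocycles
-/

namespace Vale.Agent.P002.H934

open Matrix

variable {Γ : Type} [Group Γ] {m n : ℕ}

theorem Z1.one {N : Subgroup Γ} {W : Γ →* SpecialLinearGroup (Fin m) ℂ} (c : Z1 N W) :
    c.1 1 = 0 := by
  have h : c.1 (1 * 1) = c.1 1 + (W ((1 : N) : Γ)).1 *ᵥ c.1 1 := c.2 1 1
  have h1 : (W ((1 : N) : Γ)).1 = 1 := by
    rw [Subgroup.coe_one, map_one]
    rfl
  rw [h1, Matrix.one_mulVec, mul_one] at h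
  exact left_eq_add.1 h

theorem W_inv_mul {N : Subgroup Γ} (W : Γ →* SpecialLinearGroup (Fin m) ℂ) (x : N) :
    (W ((x⁻¹ : N) : Γ)).1 * (W x).1 = 1 := by
  change (W ((x⁻¹ : N) : Γ) * W x).1 = 1
  rw [← map_mul, Subgroup.coe_inv, inv_mul_cancel, map_one]
  rfl

theorem Z1.inv {N : Subgroup Γ} {W : Γ →* SpecialLinearGroup (Fin m) ℂ} (c : Z1 N W) (x : N) :
    c.1 x⁻¹ = - ((W ((x⁻¹ : N) : Γ)).1 *ᵥ c.1 x) := by
  have h : c.1 (x⁻¹ * x) = c.1 x⁻¹ + (W ((x⁻¹ : N) : Γ)).1 *ᵥ c.1 x := c.2 x⁻¹ x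
  rw [inv_mul_cancel, Z1.one c] at h
  exact eq_neg_of_add_eq_zero_left h.symm

/-- The affine map `v ↦ A v + b`. -/
def aff (A : SpecialLinearGroup (Fin m) ℂ) (b : Fin m → ℂ) : Equiv.Perm (Fin m → ℂ) where
  toFun v := A.1 *ᵥ v + b
  invFun v := (A⁻¹).1 *ᵥ (v - b)
  left_inv v := by
    change (A⁻¹).1 *ᵥ (A.1 *ᵥ v + b - b) = v
    have h : (A⁻¹).1 * A.1 = 1 := congrArg Subtype.val (inv_mul_cancel A)
    rw [add_sub_cancel_right, Matrix.mulVec_mulVec, h, Matrix.one_mulVec]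
  right_inv v := by
    change A.1 *ᵥ ((A⁻¹).1 *ᵥ (v - b)) + b = v
    have h : A.1 * (A⁻¹).1 = 1 := congrArg Subtype.val (mul_inv_cancel A)
    rw [Matrix.mulVec_mulVec, h, Matrix.one_mulVec, sub_add_cancel]

theorem act_cob (N : Subgroup Γ) [N.Normal] (W : Γ →* SpecialLinearGroup (Fin m) ℂ) (g : Γ)
    (v : Fin m → ℂ) : act N W g (cob N W v) = cob N W ((W g).1 *ᵥ v) := by
  apply Subtype.ext
  funext x
  change (W g).1 *ᵥ ((W (cj N g x)).1 *ᵥ v - v) = (W x).1 *ᵥ ((W g).1 *ᵥ v) - (W g).1 *ᵥ v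
  have h3 : (W g).1 * (W (cj N g x)).1 = (W x).1 * (W g).1 := by
    change (W g * W (g⁻¹ * x.1 * g)).1 = (W x * W g).1
    rw [← map_mul, ← map_mul]
    congr 2
    group
  rw [Matrix.mulVec_sub, Matrix.mulVec_mulVec, Matrix.mulVec_mulVec, h3]

end Vale.Agent.P002.H934
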