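import Vale.Agent.P002.H934.DefsD

/-!
# Direct images: the spaces of cocycles
-/

namespace Vale.Agent.P002.H934

open Matrix

variable {Γ G : Type} [Group Γ] [Group G] {m r : ℕ}

/-- The space of the 1-cocycles of the subgroup `N` with values in the representation `W`. -/
def Z1 (N : Subgroup Γ) (W : Γ →* SpecialLinearGroup (Fin m) ℂ) : Submodule ℂ (N → Fin m → ℂ) where
  carrier := {c | ∀ x y : N, c (x * y) = c x + (W x).1 *ᵥ c y}
  add_mem' := by
    intro c d hc hd x y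
    change ∀ x y : N, c (x * y) = c x + (W x).1 *ᵥ c y at hc
    change ∀ x y : N, d (x * y) = d x + (W x).1 *ᵥ d y at hd
    rw [Pi.add_apply, Pi.add_apply, Pi.add_apply, hc, hd, Matrix.mulVec_add]
    abel
  zero_mem' := by
    intro x y
    simp
  smul_mem' := by
    intro t c hc x y
    change ∀ x y : N, c (x * y) = c x + (W x).1 *ᵥ c y at hc
    rw [Pi.smul_apply, Pi.smul_apply, Pi.smul_apply, hc, Matrix.mulVec_smul, smul_add]

/-- The coboundary of a vector. -/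
def cob (N : Subgroup Γ) (W : Γ →* SpecialLinearGroup (Fin m) ℂ) (v : Fin m → ℂ) : Z1 N W :=
  ⟨fun x => (W x).1 *ᵥ v - v, by
    intro x y
    have h : (W ((x * y : N) : Γ)).1 = (W x).1 * (W y).1 := by
      rw [Subgroup.coe_mul, map_mul]
      rfl
    change (W ((x * y : N) : Γ)).1 *ᵥ v - v =
      ((W x).1 *ᵥ v - v) + (W x).1 *ᵥ ((W y).1 *ᵥ v - v)
    rw [h, Matrix.mulVec_sub, Matrix.mulVec_mulVec]
    abel⟩

/-- The element `g⁻¹ x g` of `N`. -/
def cj (N : Subgroup Γ) [hN : N.Normal] (g : Γ) (x : N) : N :=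
  ⟨g⁻¹ * x * g, by
    have h := hN.conj_mem x.1 x.2 g⁻¹
    rwa [inv_inv] at h⟩

theorem cj_mul (N : Subgroup Γ) [N.Normal] (g : Γ) (x y : N) :
    cj N g (x * y) = cj N g x * cj N g y := by
  apply Subtype.ext
  change g⁻¹ * (x.1 * y.1) * g = (g⁻¹ * x.1 * g) * (g⁻¹ * y.1 * g)
  group

/-- The action of `g` on the cocycles: `(g c) x = W g (c (g⁻¹ x g))`. -/
def act (N : Subgroup Γ) [N.Normal] (W : Γ →* SpecialLinearGroup (Fin m) ℂ) (g : Γ)
    (c : Z1 N W) : Z1 N W :=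
  ⟨fun x => (W g).1 *ᵥ c.1 (cj N g x), by
    intro x y
    change (W g).1 *ᵥ c.1 (cj N g (x * y)) =
      (W g).1 *ᵥ c.1 (cj N g x) + (W x).1 *ᵥ ((W g).1 *ᵥ c.1 (cj N g y))
    have h1 : c.1 (cj N g x * cj N g y) = c.1 (cj N g x) + (W (cj N g x)).1 *ᵥ c.1 (cj N g y) :=
      c.2 _ _
    have h3 : (W g).1 * (W (cj N g x)).1 = (W x).1 * (W g).1 := by
      change (W g * W (g⁻¹ * x.1 * g)).1 = (W x * W g).1
      rw [← map_mul, ← map_mul]
      congr 2
      group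
    rw [cj_mul, h1, Matrix.mulVec_add, Matrix.mulVec_mulVec, Matrix.mulVec_mulVec, h3]⟩

/-- The cocycles whose restrictions to the groups generated by the elements of `A` are
coboundaries. -/
def ZP (N : Subgroup Γ) (A : Set Γ) (W : Γ →* SpecialLinearGroup (Fin m) ℂ) :
    Submodule ℂ (Z1 N W) where
  carrier := {c | ∀ x : N, (x : Γ) ∈ A → ∃ u, c.1 x = (W x).1 *ᵥ u - u}
  add_mem' := by
    intro c d hc hd x hx
    obtain ⟨u, hu⟩ := hc x hx
    obtain ⟨v, hv⟩ := hd x hx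
    refine ⟨u + v, ?_⟩
    change c.1 x + d.1 x = _
    rw [hu, hv, Matrix.mulVec_add]
    abel
  zero_mem' := by
    intro x hx
    refine ⟨0, ?_⟩
    rw [Matrix.mulVec_zero, sub_zero]
    rfl
  smul_mem' := by
    intro t c hc x hx
    obtain ⟨u, hu⟩ := hc x hx
    refine ⟨t • u, ?_⟩
    change t • c.1 x = _
    rw [hu, Matrix.mulVec_smul, smul_sub]

/-- The variant of `IsDirectImage` with a linear map on the space `ZP`. -/
def IsDirZ (π : Γ →* G) (A : Set Γ) (χ : G →* ℂˣ)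
    (W : Γ →* SpecialLinearGroup (Fin m) ℂ) (ρ : G →* SpecialLinearGroup (Fin r) ℂ) : Prop :=
  ∃ e : ZP π.ker A W →ₗ[ℂ] (Fin r → ℂ), Function.Surjective e ∧
    (∀ c, e c = 0 ↔ ∃ v, c.1 = cob π.ker W v) ∧
    ∀ g c c', c'.1 = act π.ker W g c.1 → (ρ (π g)).1 *ᵥ e c = (χ (π g) : ℂ) • e c'

end Vale.Agent.P002.H934
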