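import Vale.Agent.P002R.YOrbStmt

/-!
# Direct images: the definitions used in the statement
-/

namespace Vale.Agent.P002.H934

open Matrix

variable {Γ G : Type} [Group Γ] [Group G] {m r : ℕ}

/-- The restriction of `c` to `N` is a cocycle with values in the representation `W`, and its
restrictions to the groups generated by the elements of `A ∩ N` are coboundaries. -/
def IsPar (N : Subgroup Γ) (A : Set Γ) (W : Γ →* SpecialLinearGroup (Fin m) ℂ)
    (c : Γ → Fin m → ℂ) : Prop :=
  (∀ x ∈ N, ∀ y ∈ N, c (x * y) = c x + (W x).1 *ᵥ c y) ∧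
    ∀ x ∈ N, x ∈ A → ∃ u, c x = (W x).1 *ᵥ u - u

/-- The representation `ρ` of `G` is isomorphic to `χ ⊗ H¹_A(N, W)`, where `N` is the kernel of
`π : Γ → G` and `H¹_A(N, W)` consists of the classes in `H¹(N, W)` whose restrictions to the groups
generated by the elements of `A ∩ N` vanish: there is a linear map `e` which maps the cocycles with
this property onto `ℂ ^ r`, is zero exactly at those which are coboundaries on `N`, and carries the
action of `g` on the cocycles, multiplied by `χ (π g)`, to `ρ (π g)`. -/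
def IsDirectImage (π : Γ →* G) (A : Set Γ) (χ : G →* ℂˣ)
    (W : Γ →* SpecialLinearGroup (Fin m) ℂ) (ρ : G →* SpecialLinearGroup (Fin r) ℂ) : Prop :=
  ∃ e : (Γ → Fin m → ℂ) →ₗ[ℂ] (Fin r → ℂ), (∀ y, ∃ c, IsPar π.ker A W c ∧ e c = y) ∧
    (∀ c, IsPar π.ker A W c → (e c = 0 ↔ ∃ v, ∀ x ∈ π.ker, c x = (W x).1 *ᵥ v - v)) ∧
    ∀ g c, IsPar π.ker A W c →
      (ρ (π g)).1 *ᵥ e c = (χ (π g)).1 • e fun x => (W g).1 *ᵥ c (g⁻¹ * x * g)

/-- The representation of `⟨ι | R⟩` with the matrices `X` is isomorphic to `χ ⊗ H¹_A(N, V)`, where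
`N` is the kernel of `π` and `V` stands for the representation of `⟨κ | R'⟩` with the matrices
`V`. -/
def IsDI {ι κ : Type} {R : Set (FreeGroup ι)} {R' : Set (FreeGroup κ)}
    (π : PresentedGroup R' →* PresentedGroup R) (A : Set (PresentedGroup R'))
    (χ : PresentedGroup R →* ℂˣ) (V : κ → SpecialLinearGroup (Fin m) ℂ)
    (X : ι → SpecialLinearGroup (Fin r) ℂ) : Prop :=
  ∃ W ρ, (∀ p, W (PresentedGroup.of p) = V p) ∧ (∀ p, ρ (PresentedGroup.of p) = X p) ∧
    IsDirectImage π A χ W ρ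

/-- The union of the conjugacy classes of the `x j`. -/
def Conjs {s : ℕ} (x : Fin s → Γ) : Set Γ := {y | ∃ j g, y = g * x j * g⁻¹}

/-- The members of `Y` which are isomorphic to `χ ⊗ H¹_A(N, V)` for some member `V` of `T`; here
`N` is the kernel of `π` and `A` is the union of the conjugacy classes of the `w' j`. -/
def DISet {ι κ : Type} {R : Set (FreeGroup ι)} {R' : Set (FreeGroup κ)}
    (π : PresentedGroup R' →* PresentedGroup R) {s : ℕ} (w' : Fin s → FreeGroup κ)
    (χ : PresentedGroup R →* ℂˣ) (T : Set (κ → SpecialLinearGroup (Fin m) ℂ))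
    (Y : Set (ι → SpecialLinearGroup (Fin r) ℂ)) : Set (ι → SpecialLinearGroup (Fin r) ℂ) :=
  {X ∈ Y | ∃ V ∈ T, IsDI π (Conjs fun j => PresentedGroup.mk R' (w' j)) χ V X}

end Vale.Agent.P002.H934
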