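import Vale.Agent.P002.H934.Lin

/-!
# Direct images: elimination in the general case
-/

namespace Vale.Agent.P002.H934

open Matrix

variable {J : Type} [Fintype J] [DecidableEq J] {m r q d b : ℕ}

section ring

variable {R R' : Type*} [CommRing R] [CommRing R']

/-- The pivot columns. -/
def Ep (E : Matrix (Fin q) J R) (σ₁ : Fin q ⊕ Fin d ≃ J) : Matrix (Fin q) (Fin q) R :=
  E.submatrix id (σ₁ ∘ Sum.inl)

/-- The free columns. -/
def Ef (E : Matrix (Fin q) J R) (σ₁ : Fin q ⊕ Fin d ≃ J) : Matrix (Fin q) (Fin d) R :=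
  E.submatrix id (σ₁ ∘ Sum.inr)

/-- The solutions of `E z = 0` with given free coordinates, multiplied by the minor. -/
def X0 (E : Matrix (Fin q) J R) (σ₁ : Fin q ⊕ Fin d ≃ J) : Matrix J (Fin d) R :=
  (Matrix.fromRows (-((Ep E σ₁).adjugate * Ef E σ₁)) ((Ep E σ₁).det • 1)).submatrix σ₁.symm id

/-- The chosen rows and columns of `S`. -/
def S1 (S : Matrix J (Fin m) R) (σ₁ : Fin q ⊕ Fin d ≃ J) (σ₂ : Fin b ⊕ Fin r ≃ Fin d)
    (τ : Fin b → Fin m) : Matrix (Fin b) (Fin b) R :=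
  S.submatrix (fun i => σ₁ (Sum.inr (σ₂ (Sum.inl i)))) τ

/-- The other rows. -/
def S2 (S : Matrix J (Fin m) R) (σ₁ : Fin q ⊕ Fin d ≃ J) (σ₂ : Fin b ⊕ Fin r ≃ Fin d)
    (τ : Fin b → Fin m) : Matrix (Fin r) (Fin b) R :=
  S.submatrix (fun i => σ₁ (Sum.inr (σ₂ (Sum.inr i)))) τ

/-- The coordinates on the quotient, multiplied by the minor. -/
def E1 (S : Matrix J (Fin m) R) (σ₁ : Fin q ⊕ Fin d ≃ J) (σ₂ : Fin b ⊕ Fin r ≃ Fin d)
    (τ : Fin b → Fin m) : Matrix (Fin r) J R :=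
  (S1 S σ₁ σ₂ τ).det • (1 : Matrix J J R).submatrix (fun i => σ₁ (Sum.inr (σ₂ (Sum.inr i)))) id -
    S2 S σ₁ σ₂ τ * (S1 S σ₁ σ₂ τ).adjugate *
      (1 : Matrix J J R).submatrix (fun i => σ₁ (Sum.inr (σ₂ (Sum.inl i)))) id

/-- The lifts of the coordinate vectors, multiplied by the minor. -/
def X1 (E : Matrix (Fin q) J R) (σ₁ : Fin q ⊕ Fin d ≃ J) (σ₂ : Fin b ⊕ Fin r ≃ Fin d) :
    Matrix J (Fin r) R :=
  (X0 E σ₁).submatrix id (σ₂ ∘ Sum.inr)

theorem adj_map (f : R →+* R') (A : Matrix (Fin q) (Fin q) R) :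
    (A.adjugate).map f = (A.map f).adjugate := by
  have h := RingHom.map_adjugate f A
  rwa [RingHom.mapMatrix_apply, RingHom.mapMatrix_apply] at h

theorem det_map' (f : R →+* R') (A : Matrix (Fin q) (Fin q) R) :
    f A.det = (A.map f).det := by
  rw [RingHom.map_det, RingHom.mapMatrix_apply]

theorem E1_map (f : R →+* R') (S : Matrix J (Fin m) R) (σ₁ : Fin q ⊕ Fin d ≃ J)
    (σ₂ : Fin b ⊕ Fin r ≃ Fin d) (τ : Fin b → Fin m) :
    (E1 S σ₁ σ₂ τ).map f = E1 (S.map f) σ₁ σ₂ τ := by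
  have h1 : S1 (S.map f) σ₁ σ₂ τ = (S1 S σ₁ σ₂ τ).map f := rfl
  have h2 : S2 (S.map f) σ₁ σ₂ τ = (S2 S σ₁ σ₂ τ).map f := rfl
  have h3 : ∀ {K : Type} (g : K → J), ((1 : Matrix J J R).submatrix g id).map f =
      (1 : Matrix J J R').submatrix g id := by
    intro K g
    ext i j
    simp only [Matrix.map_apply, Matrix.submatrix_apply, id, Matrix.one_apply]
    split_ifs
    · exact map_one f
    · exact map_zero f
  rw [E1, E1, h1, h2, ← adj_map, ← det_map', Matrix.map_sub _ (map_sub f), Matrix.map_mul,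
    Matrix.map_mul, h3]
  congr 1
  rw [← h3]
  ext i j
  simp only [Matrix.map_apply, Matrix.smul_apply, smul_eq_mul, map_mul]

theorem X1_map (f : R →+* R') (E : Matrix (Fin q) J R) (σ₁ : Fin q ⊕ Fin d ≃ J)
    (σ₂ : Fin b ⊕ Fin r ≃ Fin d) :
    (X1 E σ₁ σ₂).map f = X1 (E.map f) σ₁ σ₂ := by
  have h1 : Ep (E.map f) σ₁ = (Ep E σ₁).map f := rfl
  have h2 : Ef (E.map f) σ₁ = (Ef E σ₁).map f := rfl
  have h3 : (X0 E σ₁).map f = X0 (E.map f) σ₁ := by
    rw [X0, X0, h1, h2, ← adj_map, ← det_map', ← Matrix.map_mul]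
    ext i j
    simp only [Matrix.map_apply, Matrix.submatrix_apply]
    cases σ₁.symm i with
    | inl k =>
      simp only [Matrix.fromRows_apply_inl, Matrix.neg_apply, Matrix.map_apply, map_neg]
    | inr k =>
      simp only [Matrix.fromRows_apply_inr, Matrix.smul_apply, smul_eq_mul, map_mul,
        Matrix.one_apply]
      split_ifs
      · rw [map_one]
      · rw [map_zero]
  rw [X1, X1, ← h3]
  rfl

theorem X0_free (E : Matrix (Fin q) J R) (σ₁ : Fin q ⊕ Fin d ≃ J) (y : Fin d → R) (k : Fin d) :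
    (X0 E σ₁ *ᵥ y) (σ₁ (Sum.inr k)) = (Ep E σ₁).det * y k := by
  change ∑ j, (X0 E σ₁) (σ₁ (Sum.inr k)) j * y j = _
  simp only [X0, Matrix.submatrix_apply, Equiv.symm_apply_apply, Matrix.fromRows_apply_inr, id,
    Matrix.smul_apply, smul_eq_mul, Matrix.one_apply, mul_ite, mul_one, mul_zero, ite_mul,
    zero_mul, Finset.sum_ite_eq, Finset.mem_univ, if_true]

theorem E_mulVec (E : Matrix (Fin q) J R) (σ₁ : Fin q ⊕ Fin d ≃ J) (z : J → R) :
    E *ᵥ z = Ep E σ₁ *ᵥ (fun i => z (σ₁ (Sum.inl i))) +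
      Ef E σ₁ *ᵥ (fun i => z (σ₁ (Sum.inr i))) := by
  funext a
  change ∑ j, E a j * z j = ∑ i, E a (σ₁ (Sum.inl i)) * z (σ₁ (Sum.inl i)) +
    ∑ i, E a (σ₁ (Sum.inr i)) * z (σ₁ (Sum.inr i))
  rw [← Equiv.sum_comp σ₁, Fintype.sum_sum_type]

theorem E_X0 (E : Matrix (Fin q) J R) (σ₁ : Fin q ⊕ Fin d ≃ J) (y : Fin d → R) :
    E *ᵥ (X0 E σ₁ *ᵥ y) = 0 := by
  rw [E_mulVec E σ₁]
  have h1 : (fun i => (X0 E σ₁ *ᵥ y) (σ₁ (Sum.inr i))) = (Ep E σ₁).det • y :=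
    funext fun i => X0_free E σ₁ y i
  have h2 : (fun i => (X0 E σ₁ *ᵥ y) (σ₁ (Sum.inl i))) =
      -((Ep E σ₁).adjugate *ᵥ (Ef E σ₁ *ᵥ y)) := by
    funext i
    rw [Matrix.mulVec_mulVec]
    change ∑ j, (X0 E σ₁) (σ₁ (Sum.inl i)) j * y j =
      -(∑ j, ((Ep E σ₁).adjugate * Ef E σ₁) i j * y j)
    rw [← Finset.sum_neg_distrib]
    refine Finset.sum_congr rfl fun j _ => ?_
    simp only [X0, Matrix.submatrix_apply, Equiv.symm_apply_apply, Matrix.fromRows_apply_inl, id,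
      Matrix.neg_apply, neg_mul]
  rw [h1, h2, Matrix.mulVec_neg, Matrix.mulVec_mulVec, Matrix.mul_adjugate, Matrix.smul_mulVec,
    Matrix.one_mulVec, Matrix.mulVec_smul, neg_add_cancel]

theorem E1_apply (S : Matrix J (Fin m) R) (σ₁ : Fin q ⊕ Fin d ≃ J)
    (σ₂ : Fin b ⊕ Fin r ≃ Fin d) (τ : Fin b → Fin m) (z : J → R) :
    E1 S σ₁ σ₂ τ *ᵥ z = (S1 S σ₁ σ₂ τ).det • (fun i => z (σ₁ (Sum.inr (σ₂ (Sum.inr i))))) -
      S2 S σ₁ σ₂ τ *ᵥ ((S1 S σ₁ σ₂ τ).adjugate *ᵥ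
        (fun i => z (σ₁ (Sum.inr (σ₂ (Sum.inl i)))))) := by
  have h1 : ∀ {K : Type} [Fintype K] (g : K → J),
      ((1 : Matrix J J R).submatrix g id) *ᵥ z = fun i => z (g i) := by
    intro K _ g
    funext i
    change ∑ j, (1 : Matrix J J R) (g i) j * z j = z (g i)
    simp [Matrix.one_apply]
  rw [E1, Matrix.sub_mulVec, Matrix.smul_mulVec, h1, ← Matrix.mulVec_mulVec,
    ← Matrix.mulVec_mulVec, h1]

end ring

/-- The zero solution. -/
theorem ker_zero (E : Matrix (Fin q) J ℂ) (σ₁ : Fin q ⊕ Fin d ≃ J) (hE : (Ep E σ₁).det ≠ 0)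
    {z : J → ℂ} (hz : E *ᵥ z = 0) (h : ∀ k, z (σ₁ (Sum.inr k)) = 0) : z = 0 := by
  rw [E_mulVec E σ₁] at hz
  have h1 : (fun i => z (σ₁ (Sum.inr i))) = 0 := funext h
  rw [h1, Matrix.mulVec_zero, add_zero] at hz
  have h2 := Matrix.eq_zero_of_mulVec_eq_zero hE hz
  funext j
  obtain ⟨i, rfl⟩ := σ₁.surjective j
  cases i with
  | inl i => exact congrFun h2 i
  | inr i => exact h i

/-- The situation at one point: `c` embeds the space `Z` as the common zeros of the rows, `e` is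
the quotient by the image of `S`. -/
structure Sit (Z : Type) [AddCommGroup Z] [Module ℂ Z] {Q : Type} (row : Q → J → ℂ)
    (S : Matrix J (Fin m) ℂ) (r : ℕ) where
  c : Z →ₗ[ℂ] (J → ℂ)
  hc : Function.Injective c
  hrow : ∀ z, (∃ x, c x = z) ↔ ∀ a, ∑ j, row a j * z j = 0
  e : Z →ₗ[ℂ] (Fin r → ℂ)
  he : Function.Surjective e
  hS : ∀ x, e x = 0 ↔ ∃ v, c x = S *ᵥ v
  hS' : ∀ v, ∃ x, c x = S *ᵥ v

variable {Z : Type} [AddCommGroup Z] [Module ℂ Z] {Q : Type} {row : Q → J → ℂ}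
  {S : Matrix J (Fin m) ℂ}

theorem Sit.finite (s : Sit Z row S r) : FiniteDimensional ℂ Z :=
  FiniteDimensional.of_injective s.c s.hc

/-- Choice of the pivots. -/
theorem Sit.exists_pivots (s : Sit Z row S r) :
    ∃ (q d b : ℕ) (ρ : Fin q → Q) (σ₁ : Fin q ⊕ Fin d ≃ J) (σ₂ : Fin b ⊕ Fin r ≃ Fin d)
      (τ : Fin b → Fin m), (Ep (Matrix.of fun i => row (ρ i)) σ₁).det ≠ 0 ∧
      (S1 S σ₁ σ₂ τ).det ≠ 0 := by
  classical
  have hfin := s.finite
  -- the rows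
  obtain ⟨κ, a, ha, hsp, hli⟩ := exists_linearIndependent' ℂ row
  have hfκ : Finite κ := hli.finite
  have := Fintype.ofFinite κ
  obtain ⟨q, hq⟩ : ∃ q, Fintype.card κ = q := ⟨_, rfl⟩
  obtain ⟨ε⟩ : Nonempty (Fin q ≃ κ) := ⟨(Fintype.equivFinOfCardEq hq).symm⟩
  obtain ⟨ρ, hρ⟩ : ∃ ρ : Fin q → Q, ρ = a ∘ ε := ⟨_, rfl⟩
  obtain ⟨E, hE⟩ : ∃ E : Matrix (Fin q) J ℂ, E = Matrix.of fun i => row (ρ i) := ⟨_, rfl⟩
  have hliE : LinearIndependent ℂ E.row := by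
    have h1 : E.row = (row ∘ a) ∘ ε := by
      rw [hE, hρ]
      rfl
    rw [h1]
    exact hli.comp ε ε.injective
  have hEt : Function.Injective Eᵀ.mulVec := by
    rw [Matrix.mulVec_injective_iff]
    exact hliE
  have hker : ∀ z, (∃ x, s.c x = z) ↔ E *ᵥ z = 0 := by
    intro z
    rw [s.hrow]
    constructor
    · intro h
      funext i
      rw [hE]
      exact h _
    · intro h a'
      have h1 : row a' ∈ Submodule.span ℂ (Set.range (row ∘ a)) := by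
        rw [hsp]
        exact Submodule.subset_span ⟨a', rfl⟩
      have h2 : ∀ x ∈ Submodule.span ℂ (Set.range (row ∘ a)), ∑ j, x j * z j = 0 := by
        intro x hx
        induction hx using Submodule.span_induction with
        | mem x hx =>
          obtain ⟨k, rfl⟩ := hx
          have h3 := congrFun h (ε.symm k)
          rw [hE, hρ] at h3
          change ∑ j, row (a (ε (ε.symm k))) j * z j = 0 at h3
          rwa [Equiv.apply_symm_apply] at h3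
        | zero => simp
        | add x y _ _ hx hy =>
          simp only [Pi.add_apply, add_mul, Finset.sum_add_distrib, hx, hy, add_zero]
        | smul t x _ hx =>
          simp only [Pi.smul_apply, smul_eq_mul, mul_assoc, ← Finset.mul_sum, hx, mul_zero]
      exact h2 _ h1
  have hrank : Module.finrank ℂ (LinearMap.range E.mulVecLin) = q := by
    have h1 : E.rank = Fintype.card (Fin q) := LinearIndependent.rank_matrix hliE
    rw [Fintype.card_fin] at h1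
    exact h1
  have hrn := LinearMap.finrank_range_add_finrank_ker E.mulVecLin
  rw [hrank, Module.finrank_fintype_fun_eq_card] at hrn
  obtain ⟨d, hd⟩ : ∃ d, Module.finrank ℂ (LinearMap.ker E.mulVecLin) = d := ⟨_, rfl⟩
  rw [hd] at hrn
  have hrk : LinearMap.range s.c = LinearMap.ker E.mulVecLin := by
    ext z
    rw [LinearMap.mem_range, hker, LinearMap.mem_ker]
    rfl
  have hZd : Module.finrank ℂ Z = d := by
    rw [← hd, ← LinearMap.finrank_range_of_inj s.hc, hrk]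
  obtain ⟨σ₁, hσ₁⟩ := exists_rows (r := d) hrn.symm Eᵀ hEt
  have hEp : (Ep E σ₁).det ≠ 0 := by
    have h1 : (Ep E σ₁) = ((Eᵀ.submatrix σ₁ id).toRows₁)ᵀ := rfl
    rw [h1, Matrix.det_transpose]
    exact hσ₁
  -- the columns of `S`
  obtain ⟨κ', a', ha', hsp', hli'⟩ := exists_linearIndependent' ℂ S.col
  have hfκ' : Finite κ' := hli'.finite
  have := Fintype.ofFinite κ'
  obtain ⟨b, hb⟩ : ∃ b, Fintype.card κ' = b := ⟨_, rfl⟩
  obtain ⟨ε'⟩ : Nonempty (Fin b ≃ κ') := ⟨(Fintype.equivFinOfCardEq hb).symm⟩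
  obtain ⟨τ, hτ⟩ : ∃ τ : Fin b → Fin m, τ = a' ∘ ε' := ⟨_, rfl⟩
  have hliS : LinearIndependent ℂ (S.submatrix id τ).col := by
    have h1 : (S.submatrix id τ).col = (S.col ∘ a') ∘ ε' := by
      rw [hτ]
      rfl
    rw [h1]
    exact hli'.comp ε' ε'.injective
  have hSinj : Function.Injective (S.submatrix id τ).mulVec := by
    rw [Matrix.mulVec_injective_iff]
    exact hliS
  have hrS : Module.finrank ℂ (LinearMap.range S.mulVecLin) = b := by
    have h1 : LinearMap.range S.mulVecLin = Submodule.span ℂ (Set.range (S.col ∘ a')) := by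
      rw [hsp', Matrix.range_mulVecLin]
    rw [h1, finrank_span_eq_card hli', hb]
  have hke : Module.finrank ℂ (LinearMap.ker s.e) = b := by
    rw [← hrS]
    have h1 : (LinearMap.ker s.e).map s.c = LinearMap.range S.mulVecLin := by
      ext z
      constructor
      · rintro ⟨x, hx, rfl⟩
        obtain ⟨v, hv⟩ := (s.hS x).1 hx
        exact ⟨v, hv.symm⟩
      · rintro ⟨v, rfl⟩
        obtain ⟨x, hx⟩ := s.hS' v
        exact ⟨x, (s.hS x).2 ⟨v, hx⟩, hx⟩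
    rw [← h1]
    exact (LinearEquiv.finrank_eq (Submodule.equivMapOfInjective s.c s.hc _))
  have hdb : d = b + r := by
    have h1 := LinearMap.finrank_range_add_finrank_ker s.e
    rw [LinearMap.range_eq_top.2 s.he, finrank_top, Module.finrank_fin_fun, hke, hZd] at h1
    omega
  have hcard : Fintype.card (Fin d) = b + r := by rw [Fintype.card_fin, hdb]
  obtain ⟨σ₂, hσ₂⟩ := exists_rows hcard (S.submatrix (fun k : Fin d => σ₁ (Sum.inr k)) τ) (by
    intro v w h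
    apply hSinj
    have h1 : ∃ x, s.c x = S.submatrix id τ *ᵥ (v - w) := by
      obtain ⟨x, hx⟩ := s.hS' (fun k => ∑ i, if τ i = k then (v - w) i else 0)
      refine ⟨x, ?_⟩
      rw [hx]
      funext j
      change ∑ k, S j k * (∑ i, if τ i = k then (v - w) i else 0) = ∑ i, S j (τ i) * (v - w) i
      simp only [Finset.mul_sum]
      rw [Finset.sum_comm]
      refine Finset.sum_congr rfl fun i _ => ?_
      simp
    have h2 := ker_zero E σ₁ hEp ((hker _).1 h1) (fun k => by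
      have h3 := congrFun h k
      change (∑ i, S (σ₁ (Sum.inr k)) (τ i) * v i) = ∑ i, S (σ₁ (Sum.inr k)) (τ i) * w i at h3
      change (∑ i, S (σ₁ (Sum.inr k)) (τ i) * (v - w) i) = 0
      simp only [Pi.sub_apply, mul_sub, Finset.sum_sub_distrib, h3, sub_self])
    rw [Matrix.mulVec_sub, sub_eq_zero] at h2
    exact h2)
  refine ⟨q, d, b, ρ, σ₁, σ₂, τ, ?_, ?_⟩
  · rw [← hE]
    exact hEp
  · exact hσ₂

/-- Combinations of some columns. -/
theorem sub_mulVec' (τ : Fin b → Fin m) (v : Fin b → ℂ) :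
    ∃ v', S *ᵥ v' = S.submatrix id τ *ᵥ v := by
  classical
  refine ⟨fun k => ∑ i, if τ i = k then v i else 0, ?_⟩
  funext j
  change ∑ k, S j k * (∑ i, if τ i = k then v i else 0) = ∑ i, S j (τ i) * v i
  simp only [Finset.mul_sum]
  rw [Finset.sum_comm]
  refine Finset.sum_congr rfl fun i _ => ?_
  simp

/-- Where the two minors do not vanish, the quotient has the given coordinates. -/
theorem Sit.exists_T (s : Sit Z row S r) (ρ : Fin q → Q) (σ₁ : Fin q ⊕ Fin d ≃ J)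
    (σ₂ : Fin b ⊕ Fin r ≃ Fin d) (τ : Fin b → Fin m)
    (h1 : (Ep (Matrix.of fun i => row (ρ i)) σ₁).det ≠ 0) (h2 : (S1 S σ₁ σ₂ τ).det ≠ 0) :
    ∃ T : (Matrix (Fin r) (Fin r) ℂ)ˣ,
      (∀ x, s.e x = T.1 *ᵥ ((S1 S σ₁ σ₂ τ).det⁻¹ • (E1 S σ₁ σ₂ τ *ᵥ s.c x))) ∧
      ∀ y, ∃ x, s.c x = X1 (Matrix.of fun i => row (ρ i)) σ₁ σ₂ *ᵥ y ∧
        s.e x = (Ep (Matrix.of fun i => row (ρ i)) σ₁).det • (T.1 *ᵥ y) := by
  classical
  have hfin := s.finite
  obtain ⟨E, hE⟩ : ∃ E : Matrix (Fin q) J ℂ, E = Matrix.of fun i => row (ρ i) := ⟨_, rfl⟩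
  rw [← hE] at h1 ⊢
  -- the image of `c`
  have hle : LinearMap.range s.c ≤ LinearMap.ker E.mulVecLin := by
    rintro z ⟨x, rfl⟩
    rw [LinearMap.mem_ker]
    funext i
    rw [hE]
    exact (s.hrow _).1 ⟨x, rfl⟩ (ρ i)
  have hd : d = b + r := by
    have := Fintype.card_congr σ₂
    rw [Fintype.card_sum, Fintype.card_fin, Fintype.card_fin, Fintype.card_fin] at this
    exact this.symm
  have hker : Module.finrank ℂ (LinearMap.ker E.mulVecLin) ≤ d := by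
    have h3 : Function.Injective ((LinearMap.funLeft ℂ ℂ fun k : Fin d => σ₁ (Sum.inr k)) ∘ₗ
        (LinearMap.ker E.mulVecLin).subtype) := by
      rw [← LinearMap.ker_eq_bot, LinearMap.ker_eq_bot']
      intro z hz
      apply Subtype.ext
      exact ker_zero E σ₁ h1 z.2 fun k => congrFun hz k
    have h4 := LinearMap.finrank_le_finrank_of_injective h3
    rwa [Module.finrank_fin_fun] at h4
  have hSτ : Function.Injective (S.submatrix id τ).mulVecLin := by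
    rw [← LinearMap.ker_eq_bot, LinearMap.ker_eq_bot']
    intro v hv
    refine Matrix.eq_zero_of_mulVec_eq_zero h2 ?_
    funext i
    exact congrFun hv (σ₁ (Sum.inr (σ₂ (Sum.inl i))))
  have hbe : b ≤ Module.finrank ℂ (LinearMap.ker s.e) := by
    have h3 : LinearMap.range (S.submatrix id τ).mulVecLin ≤ (LinearMap.ker s.e).map s.c := by
      rintro z ⟨v, rfl⟩
      obtain ⟨v', hv'⟩ := sub_mulVec' (S := S) τ v
      obtain ⟨x, hx⟩ := s.hS' v'
      refine ⟨x, (s.hS x).2 ⟨v', hx⟩, ?_⟩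
      rw [hx, hv']
      rfl
    have h4 := Submodule.finrank_mono h3
    rw [LinearMap.finrank_range_of_inj hSτ, Module.finrank_fin_fun,
      ← LinearEquiv.finrank_eq (Submodule.equivMapOfInjective s.c s.hc _)] at h4
    exact h4
  have hZ : d ≤ Module.finrank ℂ (LinearMap.range s.c) := by
    rw [LinearMap.finrank_range_of_inj s.hc]
    have h3 := LinearMap.finrank_range_add_finrank_ker s.e
    rw [LinearMap.range_eq_top.2 s.he, finrank_top, Module.finrank_fin_fun] at h3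
    omega
  have hrk : LinearMap.range s.c = LinearMap.ker E.mulVecLin :=
    Submodule.eq_of_le_of_finrank_le hle (hker.trans hZ)
  have hmem : ∀ z, (∃ x, s.c x = z) ↔ E *ᵥ z = 0 := by
    intro z
    rw [← LinearMap.mem_range, hrk, LinearMap.mem_ker]
    rfl
  -- the lifts
  have hX : ∀ y : Fin r → ℂ, X1 E σ₁ σ₂ *ᵥ y =
      X0 E σ₁ *ᵥ fun k => Sum.elim (0 : Fin b → ℂ) y (σ₂.symm k) := by
    intro y
    funext j
    change ∑ i, X0 E σ₁ j (σ₂ (Sum.inr i)) * y i =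
      ∑ k, X0 E σ₁ j k * Sum.elim (0 : Fin b → ℂ) y (σ₂.symm k)
    rw [← Equiv.sum_comp σ₂, Fintype.sum_sum_type]
    simp
  have hXk : ∀ y, E *ᵥ (X1 E σ₁ σ₂ *ᵥ y) = 0 := fun y => by
    rw [hX, E_X0]
  obtain ⟨cE, hcE⟩ : ∃ cE : Z ≃ₗ[ℂ] LinearMap.range s.c, ∀ x, (cE x : J → ℂ) = s.c x :=
    ⟨LinearEquiv.ofInjective s.c s.hc, fun x => rfl⟩
  obtain ⟨g, hg⟩ : ∃ g : (Fin r → ℂ) →ₗ[ℂ] LinearMap.range s.c,
      ∀ y, (g y : J → ℂ) = X1 E σ₁ σ₂ *ᵥ y :=
    ⟨(X1 E σ₁ σ₂).mulVecLin.codRestrict _ fun y => (hmem _).2 (hXk y), fun y => rfl⟩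
  obtain ⟨Tl, hTl⟩ : ∃ Tl : (Fin r → ℂ) →ₗ[ℂ] (Fin r → ℂ),
      ∀ y, Tl y = (Ep E σ₁).det⁻¹ • s.e (cE.symm (g y)) :=
    ⟨(Ep E σ₁).det⁻¹ • (s.e ∘ₗ cE.symm.toLinearMap ∘ₗ g), fun y => rfl⟩
  have hlift : ∀ y, s.c (cE.symm (g y)) = X1 E σ₁ σ₂ *ᵥ y := fun y => by
    rw [← hcE, LinearEquiv.apply_symm_apply, hg]
  have key : ∀ x, s.e x = Tl ((S1 S σ₁ σ₂ τ).det⁻¹ • (E1 S σ₁ σ₂ τ *ᵥ s.c x)) := by
    intro x
    obtain ⟨y, hy⟩ : ∃ y, y = (S1 S σ₁ σ₂ τ).det⁻¹ • (E1 S σ₁ σ₂ τ *ᵥ s.c x) := ⟨_, rfl⟩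
    rw [← hy]
    obtain ⟨v, hv⟩ : ∃ v, v = (S1 S σ₁ σ₂ τ).det⁻¹ • ((S1 S σ₁ σ₂ τ).adjugate *ᵥ
        (fun i => s.c x (σ₁ (Sum.inr (σ₂ (Sum.inl i)))))) := ⟨_, rfl⟩
    have hS1v : S1 S σ₁ σ₂ τ *ᵥ v = fun i => s.c x (σ₁ (Sum.inr (σ₂ (Sum.inl i)))) := by
      rw [hv, Matrix.mulVec_smul, Matrix.mulVec_mulVec, Matrix.mul_adjugate, Matrix.smul_mulVec,
        Matrix.one_mulVec, smul_smul, inv_mul_cancel₀ h2, one_smul]
    have hy2 : ∀ i, y i = s.c x (σ₁ (Sum.inr (σ₂ (Sum.inr i)))) - (S2 S σ₁ σ₂ τ *ᵥ v) i := by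
      intro i
      rw [hy, E1_apply, hv, Matrix.mulVec_smul]
      simp only [Pi.smul_apply, Pi.sub_apply, smul_eq_mul]
      field_simp
    obtain ⟨v', hv'⟩ := sub_mulVec' (S := S) τ v
    obtain ⟨x₁, hx₁⟩ := s.hS' v'
    have hx₁e : s.e x₁ = 0 := (s.hS x₁).2 ⟨v', hx₁⟩
    have hw : (Ep E σ₁).det • (x - x₁) = cE.symm (g y) := by
      apply s.hc
      rw [map_smul, map_sub, hlift, hx₁, hv', ← sub_eq_zero]
      refine ker_zero E σ₁ h1 ?_ fun k => ?_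
      · rw [Matrix.mulVec_sub, hXk, Matrix.mulVec_smul, Matrix.mulVec_sub, ← hv', ← hx₁,
          (hmem _).1 ⟨x, rfl⟩, (hmem _).1 ⟨x₁, rfl⟩, sub_zero, sub_zero, smul_zero]
      · obtain ⟨k', rfl⟩ := σ₂.surjective k
        rw [hX, Pi.sub_apply, X0_free, Pi.smul_apply, Pi.sub_apply, smul_eq_mul,
          Equiv.symm_apply_apply]
        cases k' with
        | inl i =>
          have h5 : (S.submatrix id τ *ᵥ v) (σ₁ (Sum.inr (σ₂ (Sum.inl i)))) =
              (S1 S σ₁ σ₂ τ *ᵥ v) i := rfl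
          rw [h5, hS1v]
          simp
        | inr i =>
          have h5 : (S.submatrix id τ *ᵥ v) (σ₁ (Sum.inr (σ₂ (Sum.inr i)))) =
              (S2 S σ₁ σ₂ τ *ᵥ v) i := rfl
          rw [h5, Sum.elim_inr, hy2]
          ring
    rw [hTl, ← hw, map_smul, map_sub, hx₁e, sub_zero, smul_smul, inv_mul_cancel₀ h1, one_smul]
  have hsurj : Function.Surjective Tl := by
    intro w
    obtain ⟨x, hx⟩ := s.he w
    exact ⟨_, by rw [← key x, hx]⟩
  have hu : IsUnit (LinearMap.toMatrix' Tl) := by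
    rw [← Matrix.mulVec_surjective_iff_isUnit]
    intro w
    obtain ⟨y, hy⟩ := hsurj w
    exact ⟨y, by rw [LinearMap.toMatrix'_mulVec, hy]⟩
  obtain ⟨T, hT⟩ := hu
  have hTv : ∀ y, T.1 *ᵥ y = Tl y := fun y => by rw [hT, LinearMap.toMatrix'_mulVec]
  refine ⟨T, fun x => by rw [hTv, key], fun y => ⟨cE.symm (g y), hlift y, ?_⟩⟩
  rw [hTv, hTl, smul_smul, mul_inv_cancel₀ h1, one_smul]

end Vale.Agent.P002.H934
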