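import Vale.Agent.P002.H934.Main
import Vale.Agent.P002.H2.MI

/-!
# Direct images: the final form
-/

namespace Vale.Agent.P002.H934

open Matrix NumberField Vale.Agent.P002R.Orb Vale.Agent.P002.H252 Vale.Agent.P002.H326J

variable {ι κ : Type} {m n r s s' : ℕ} {R : Set (FreeGroup ι)} {R' : Set (FreeGroup κ)}

theorem exists_phi {Γ : Type} [Group Γ] {N : Subgroup Γ} (hN : N.FG) :
    ∃ (n : ℕ) (φ : FreeGroup (Fin n) →* N), Function.Surjective φ := by
  have h1 : Group.FG N := (Group.fg_iff_subgroup_fg N).2 hN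
  obtain ⟨α, hα, f, hf⟩ := Group.fg_iff_exists_freeGroup_hom_surjective_finite.1 h1
  obtain ⟨n, ⟨e⟩⟩ := Finite.exists_equiv_fin α
  refine ⟨n, f.comp (FreeGroup.freeGroupCongr e.symm).toMonoidHom, ?_⟩
  exact hf.comp (FreeGroup.freeGroupCongr e.symm).surjective

theorem conjs_stable {Γ : Type} [Group Γ] (x : Fin s → Γ) (g y : Γ)
    (hy : y ∈ Conjs x) : g⁻¹ * y * g ∈ Conjs x := by
  obtain ⟨j, h, rfl⟩ := hy
  exact ⟨j, g⁻¹ * h, by group⟩

theorem lift_eq (W : PresentedGroup R' →* SpecialLinearGroup (Fin m) ℂ)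
    {V : κ → SpecialLinearGroup (Fin m) ℂ} (h : ∀ p, W (PresentedGroup.of p) = V p)
    (x : FreeGroup κ) : W (PresentedGroup.mk R' x) = FreeGroup.lift V x := by
  have h1 : FreeGroup.lift V = W.comp (PresentedGroup.mk R') := by
    ext p : 1
    rw [FreeGroup.lift_apply_of, MonoidHom.comp_apply, ← h]
    rfl
  rw [h1]
  rfl

theorem rank_conj (A B : SpecialLinearGroup (Fin m) ℂ) (h : IsConj A B) :
    (B.1 - 1).rank = (A.1 - 1).rank := by
  obtain ⟨c, hc⟩ := isConj_iff.1 h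
  have h1 : B.1 - 1 = c.1 * (A.1 - 1) * (c⁻¹).1 := by
    have h2 : c.1 * (c⁻¹).1 = 1 := congrArg Subtype.val (mul_inv_cancel c)
    have h3 : B.1 = c.1 * A.1 * (c⁻¹).1 := by
      rw [← hc]
      rfl
    rw [Matrix.mul_sub, Matrix.sub_mul, Matrix.mul_one, h2, h3]
  have h4 : IsUnit c.1.det := by rw [c.2]; exact isUnit_one
  have h5 : IsUnit (c⁻¹).1.det := by rw [(c⁻¹).2]; exact isUnit_one
  rw [h1, Matrix.rank_mul_eq_left_of_isUnit_det _ _ h5,
    Matrix.rank_mul_eq_right_of_isUnit_det _ _ h4]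

theorem lift_conj (X : ι → SpecialLinearGroup (Fin r) ℂ) (P : SpecialLinearGroup (Fin r) ℂ)
    (x : FreeGroup ι) :
    FreeGroup.lift (fun p => P⁻¹ * X p * P) x = P⁻¹ * FreeGroup.lift X x * P := by
  have h1 : FreeGroup.lift (fun p => P⁻¹ * X p * P) =
      (MulAut.conj P⁻¹).toMonoidHom.comp (FreeGroup.lift X) := by
    ext p : 1
    rw [FreeGroup.lift_apply_of, MonoidHom.comp_apply, FreeGroup.lift_apply_of]
    change _ = P⁻¹ * X p * (P⁻¹)⁻¹
    rw [inv_inv]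
  rw [h1, MonoidHom.comp_apply]
  change P⁻¹ * FreeGroup.lift X x * (P⁻¹)⁻¹ = _
  rw [inv_inv]

/-- `YW` is stable under conjugation. -/
theorem YW_conj (w : Fin s → FreeGroup ι) (C : Fin s → SpecialLinearGroup (Fin r) ℂ)
    {X : ι → SpecialLinearGroup (Fin r) ℂ} (hX : X ∈ YW R w C)
    (P : SpecialLinearGroup (Fin r) ℂ) : (fun p => P⁻¹ * X p * P) ∈ YW R w C := by
  obtain ⟨⟨hrep, hss⟩, hC⟩ := hX
  have hP1 : (P⁻¹).1 * P.1 = 1 := congrArg Subtype.val (inv_mul_cancel P)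
  have hP2 : P.1 * (P⁻¹).1 = 1 := congrArg Subtype.val (mul_inv_cancel P)
  refine ⟨⟨fun x hx => ?_, fun W hW => ?_⟩, fun j => ?_⟩
  · rw [lift_conj, hrep x hx, mul_one, inv_mul_cancel]
  · obtain ⟨E, hE⟩ : ∃ E : (Fin r → ℂ) ≃ₗ[ℂ] (Fin r → ℂ), (∀ v, E v = P.1 *ᵥ v) ∧
        ∀ v, E.symm v = (P⁻¹).1 *ᵥ v :=
      ⟨LinearEquiv.ofLinearMap P.1.mulVecLin (P⁻¹).1.mulVecLin
        (by rw [← Matrix.mulVecLin_mul, hP2, Matrix.mulVecLin_one])
        (by rw [← Matrix.mulVecLin_mul, hP1, Matrix.mulVecLin_one]), fun v => rfl, fun v => rfl⟩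
    have h1 : IsInv X (W.map E.toLinearMap) := by
      rintro p _ ⟨v, hv, rfl⟩
      refine ⟨(P⁻¹ * X p * P).1 *ᵥ v, hW p v hv, ?_⟩
      change E _ = (X p).1 *ᵥ E v
      rw [hE.1, hE.1, Matrix.mulVec_mulVec, Matrix.mulVec_mulVec]
      congr 1
      change P.1 * ((P⁻¹).1 * (X p).1 * P.1) = _
      rw [← Matrix.mul_assoc, ← Matrix.mul_assoc, hP2, Matrix.one_mul]
    obtain ⟨W', hW', hc⟩ := hss _ h1
    refine ⟨W'.map E.symm.toLinearMap, ?_, ?_⟩
    · rintro p _ ⟨v, hv, rfl⟩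
      refine ⟨(X p).1 *ᵥ v, hW' p v hv, ?_⟩
      change E.symm _ = (P⁻¹ * X p * P).1 *ᵥ E.symm v
      rw [hE.2, hE.2, Matrix.mulVec_mulVec, Matrix.mulVec_mulVec]
      congr 1
      change _ = ((P⁻¹).1 * (X p).1 * P.1) * (P⁻¹).1
      rw [Matrix.mul_assoc _ P.1, hP2, Matrix.mul_one]
    · have h2 : W = (W.map E.toLinearMap).map E.symm.toLinearMap := by
        rw [← Submodule.map_comp]
        simp
      rw [h2]
      exact (Submodule.orderIsoMapComap E.symm).isCompl hc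
  · refine (hC j).trans ?_
    rw [lift_conj]
    exact isConj_iff.2 ⟨P⁻¹, by rw [inv_inv]⟩

/-- The ranks at the `w' j` are constant if the conjugacy classes are. -/
theorem rank_const (w' : Fin s' → FreeGroup κ) (C' : Fin s' → SpecialLinearGroup (Fin m) ℂ)
    (x : PresentedGroup R') (hx : x ∈ Conjs fun j => PresentedGroup.mk R' (w' j)) :
    ∃ k : ℕ, ∀ V : κ → SpecialLinearGroup (Fin m) ℂ,
      (∀ j, IsConj (C' j) (FreeGroup.lift V (w' j))) →
      ∀ W : PresentedGroup R' →* SpecialLinearGroup (Fin m) ℂ,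
      (∀ p, W (PresentedGroup.of p) = V p) → ((W x).1 - 1).rank = k := by
  obtain ⟨j, g, rfl⟩ := hx
  refine ⟨((C' j).1 - 1).rank, fun V hV W hW => ?_⟩
  refine rank_conj _ _ ?_
  have h1 := hV j
  rw [← lift_eq W hW] at h1
  refine h1.trans ?_
  rw [map_mul, map_mul, map_inv]
  exact isConj_iff.2 ⟨_, rfl⟩

end Vale.Agent.P002.H934
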