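import Vale.Agent.P002.H934.Poly

/-!
# Direct images: cocycles on a finitely generated normal subgroup
-/

namespace Vale.Agent.P002.H934

open Matrix

section group

variable {Γ : Type} [Group Γ] {m n : ℕ} {N : Subgroup Γ}
  (W : Γ →* SpecialLinearGroup (Fin m) ℂ) (φ : FreeGroup (Fin n) →* N)

/-- The affine action of the free group with the translation parts `z`. -/
def az (z : Fin n → Fin m → ℂ) : FreeGroup (Fin n) →* Equiv.Perm (Fin m → ℂ) :=
  FreeGroup.lift fun j => aff (W (φ (FreeGroup.of j))) (z j)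

theorem az_of (z : Fin n → Fin m → ℂ) (j : Fin n) (v : Fin m → ℂ) :
    az W φ z (FreeGroup.of j) v = (W (φ (FreeGroup.of j))).1 *ᵥ v + z j := by
  rw [az, FreeGroup.lift_apply_of]
  rfl

theorem az_key (z : Fin n → Fin m → ℂ) (u : FreeGroup (Fin n)) :
    ∀ v, az W φ z u v = (W (φ u)).1 *ᵥ v + az W φ z u 0 := by
  induction u using FreeGroup.induction_on with
  | C1 =>
    intro v
    have h1 : (W (φ 1)).1 = 1 := by
      rw [map_one, Subgroup.coe_one, map_one]
      rfl
    rw [h1, map_one, Matrix.one_mulVec]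
    change v = v + 0
    rw [add_zero]
  | of j =>
    intro v
    rw [az_of, az_of, Matrix.mulVec_zero, zero_add]
  | inv_of j hj =>
    have h1 : ∀ v, az W φ z (FreeGroup.of j)⁻¹ v = (W (φ (FreeGroup.of j)⁻¹)).1 *ᵥ (v -
        az W φ z (FreeGroup.of j) 0) := by
      intro v
      have h2 := hj (az W φ z (FreeGroup.of j)⁻¹ v)
      have h3 : az W φ z (FreeGroup.of j) (az W φ z (FreeGroup.of j)⁻¹ v) = v := by
        rw [map_inv]
        exact Equiv.apply_symm_apply _ _
      rw [h3] at h2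
      have h4 : (W (φ (FreeGroup.of j)⁻¹)).1 * (W (φ (FreeGroup.of j))).1 = 1 := by
        rw [map_inv]
        exact W_inv_mul W _
      rw [h2, add_sub_cancel_right, Matrix.mulVec_mulVec, h4, Matrix.one_mulVec, ← h2]
    intro v
    rw [h1 v, h1 0, ← Matrix.mulVec_add]
    congr 1
    abel
  | mul u v hu hv =>
    intro w
    have h1 : (W (φ (u * v))).1 = (W (φ u)).1 * (W (φ v)).1 := by
      rw [map_mul, Subgroup.coe_mul, map_mul]
      rfl
    rw [map_mul, Equiv.Perm.mul_apply, Equiv.Perm.mul_apply, hu, hv w, hu (az W φ z v 0), h1,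
      Matrix.mulVec_add, Matrix.mulVec_mulVec, add_assoc]

theorem az_mul (z : Fin n → Fin m → ℂ) (u v : FreeGroup (Fin n)) :
    az W φ z (u * v) 0 = az W φ z u 0 + (W (φ u)).1 *ᵥ az W φ z v 0 := by
  rw [map_mul, Equiv.Perm.mul_apply, az_key, add_comm]

theorem az_inv (z : Fin n → Fin m → ℂ) (u : FreeGroup (Fin n)) :
    az W φ z u⁻¹ 0 = - ((W ((φ u)⁻¹ : N)).1 *ᵥ az W φ z u 0) := by
  have h := az_mul W φ z u⁻¹ u
  have hi : φ u⁻¹ = (φ u)⁻¹ := map_inv φ u
  have h0 : az W φ z (u⁻¹ * u) 0 = 0 := by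
    rw [inv_mul_cancel, map_one]
    rfl
  rw [h0, hi] at h
  exact eq_neg_of_add_eq_zero_left h.symm

/-- A cocycle is given by the affine action. -/
theorem az_coc (c : Z1 N W) (u : FreeGroup (Fin n)) :
    c.1 (φ u) = az W φ (fun j => c.1 (φ (FreeGroup.of j))) u 0 := by
  induction u using FreeGroup.induction_on with
  | C1 =>
    rw [map_one, Z1.one c, map_one]
    rfl
  | of j => rw [az_of, Matrix.mulVec_zero, zero_add]
  | inv_of j hj => rw [map_inv, Z1.inv c, az_inv, hj]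
  | mul u v hu hv =>
    have h1 : c.1 (φ u * φ v) = c.1 (φ u) + (W (φ u)).1 *ᵥ c.1 (φ v) := c.2 _ _
    rw [map_mul, h1, az_mul, hu, hv]

variable (hφ : Function.Surjective φ)
include hφ

/-- Cocycles are determined by their values on generators. -/
theorem Z1.ext_surj (c d : Z1 N W)
    (h : ∀ j, c.1 (φ (FreeGroup.of j)) = d.1 (φ (FreeGroup.of j))) : c = d := by
  apply Subtype.ext
  funext y
  obtain ⟨u, rfl⟩ := hφ y
  rw [az_coc W φ c, az_coc W φ d]
  have h1 : (fun j => c.1 (φ (FreeGroup.of j))) = fun j => d.1 (φ (FreeGroup.of j)) :=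
    funext h
  rw [h1]

/-- Values on the generators which satisfy the relations extend to a cocycle. -/
theorem Z1.exists_surj (z : Fin n → Fin m → ℂ) (hz : ∀ u, φ u = 1 → az W φ z u 0 = 0) :
    ∃ c : Z1 N W, ∀ j, c.1 (φ (FreeGroup.of j)) = z j := by
  have hwd : ∀ u v, φ u = φ v → az W φ z u 0 = az W φ z v 0 := by
    intro u v h
    have h1 : φ (u⁻¹ * v) = 1 := by rw [map_mul, map_inv, h, inv_mul_cancel]
    have h2 := az_mul W φ z u (u⁻¹ * v)
    rw [mul_inv_cancel_left, hz _ h1, Matrix.mulVec_zero, add_zero] at h2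
    exact h2.symm
  choose s hs using hφ
  refine ⟨⟨fun y => az W φ z (s y) 0, ?_⟩, fun j => ?_⟩
  · intro x y
    change az W φ z (s (x * y)) 0 = az W φ z (s x) 0 + (W x).1 *ᵥ az W φ z (s y) 0
    rw [hwd (s (x * y)) (s x * s y) (by rw [hs, map_mul, hs, hs]), az_mul, hs]
  · change az W φ z (s (φ (FreeGroup.of j))) 0 = z j
    rw [hwd _ (FreeGroup.of j) (hs _), az_of, Matrix.mulVec_zero, zero_add]

end group

section poly

variable {κ : Type} {m n : ℕ} {R' : Set (FreeGroup κ)}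
  {N : Subgroup (PresentedGroup R')} (φ : FreeGroup (Fin n) →* N)

theorem az_poly (u : FreeGroup (Fin n)) :
    ∃ F : Fin n → Matrix (Fin m) (Fin m) (PZ κ m), ∀ (V : κ → SpecialLinearGroup (Fin m) ℂ)
      (W : PresentedGroup R' →* SpecialLinearGroup (Fin m) ℂ),
      (∀ p, W (PresentedGroup.of p) = V p) → ∀ z,
      az W φ z u 0 = ∑ l, (F l).map (ev V) *ᵥ z l := by
  classical
  induction u using FreeGroup.induction_on with
  | C1 =>
    refine ⟨fun _ => 0, fun V W h z => ?_⟩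
    rw [map_one]
    symm
    refine Finset.sum_eq_zero fun l _ => ?_
    rw [Matrix.map_zero _ (map_zero _), Matrix.zero_mulVec]
  | of j =>
    refine ⟨fun l => if l = j then 1 else 0, fun V W h z => ?_⟩
    rw [az_of, Matrix.mulVec_zero, zero_add, Finset.sum_eq_single j]
    · beta_reduce
      rw [if_pos rfl, Matrix.map_one _ (map_zero _) (map_one _), Matrix.one_mulVec]
    · intro l _ hl
      beta_reduce
      rw [if_neg hl, Matrix.map_zero _ (map_zero _), Matrix.zero_mulVec]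
    · intro hj
      exact absurd (Finset.mem_univ j) hj
  | inv_of j hj =>
    obtain ⟨F, hF⟩ := hj
    obtain ⟨M, hM⟩ := word_poly (m := m) (((φ (FreeGroup.of j))⁻¹ : N) : PresentedGroup R')
    refine ⟨fun l => - (M * F l), fun V W h z => ?_⟩
    rw [az_inv, hF V W h z, hM V W h, Matrix.mulVec_sum, ← Finset.sum_neg_distrib]
    refine Finset.sum_congr rfl fun l _ => ?_
    rw [Matrix.map_neg _ (map_neg (ev V)), Matrix.map_mul, Matrix.neg_mulVec,
      Matrix.mulVec_mulVec]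
  | mul u v hu hv =>
    obtain ⟨F, hF⟩ := hu
    obtain ⟨F', hF'⟩ := hv
    obtain ⟨M, hM⟩ := word_poly (m := m) ((φ u : N) : PresentedGroup R')
    refine ⟨fun l => F l + M * F' l, fun V W h z => ?_⟩
    rw [az_mul, hF V W h z, hF' V W h z, hM V W h, Matrix.mulVec_sum,
      ← Finset.sum_add_distrib]
    refine Finset.sum_congr rfl fun l _ => ?_
    rw [Matrix.map_add _ (map_add (ev V)), Matrix.map_mul, Matrix.add_mulVec,
      Matrix.mulVec_mulVec]

/-- The values of a cocycle on the generators. -/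
def gv {Γ : Type} [Group Γ] {N : Subgroup Γ} {W : Γ →* SpecialLinearGroup (Fin m) ℂ}
    (φ : FreeGroup (Fin n) →* N) : Z1 N W →ₗ[ℂ] (Fin n × Fin m → ℂ) where
  toFun c p := c.1 (φ (FreeGroup.of p.1)) p.2
  map_add' _ _ := rfl
  map_smul' _ _ := rfl

theorem gact_poly [N.Normal] (hφ : Function.Surjective φ) (g : PresentedGroup R') :
    ∃ B : Matrix (Fin n × Fin m) (Fin n × Fin m) (PZ κ m),
      ∀ (V : κ → SpecialLinearGroup (Fin m) ℂ)
      (W : PresentedGroup R' →* SpecialLinearGroup (Fin m) ℂ),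
      (∀ p, W (PresentedGroup.of p) = V p) → ∀ c : Z1 N W,
      gv φ (act N W g c) = B.map (ev V) *ᵥ gv φ c := by
  choose s hs using hφ
  choose F hF using fun j : Fin n => az_poly (m := m) φ (s (cj N g (φ (FreeGroup.of j))))
  obtain ⟨M, hM⟩ := word_poly (m := m) g
  refine ⟨fun p q => (M * F p.1 q.1) p.2 q.2, fun V W h c => ?_⟩
  funext p
  have h1 : gv φ (act N W g c) p = ((W g).1 *ᵥ c.1 (cj N g (φ (FreeGroup.of p.1)))) p.2 := rfl
  have h2 : c.1 (cj N g (φ (FreeGroup.of p.1))) =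
      ∑ l, (F p.1 l).map (ev V) *ᵥ c.1 (φ (FreeGroup.of l)) := by
    rw [← hF p.1 V W h, ← az_coc, hs]
  rw [h1, h2, hM V W h, Matrix.mulVec_sum, Finset.sum_apply]
  change _ = ∑ q : Fin n × Fin m, ev V ((M * F p.1 q.1) p.2 q.2) * gv φ c q
  rw [Fintype.sum_prod_type]
  refine Finset.sum_congr rfl fun l _ => ?_
  rw [Matrix.mulVec_mulVec, ← Matrix.map_mul]
  rfl

theorem gcob_poly :
    ∃ S : Matrix (Fin n × Fin m) (Fin m) (PZ κ m), ∀ (V : κ → SpecialLinearGroup (Fin m) ℂ)
      (W : PresentedGroup R' →* SpecialLinearGroup (Fin m) ℂ),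
      (∀ p, W (PresentedGroup.of p) = V p) → ∀ v,
      gv φ (cob N W v) = S.map (ev V) *ᵥ v := by
  choose M hM using fun j : Fin n => word_poly (m := m)
    ((φ (FreeGroup.of j) : N) : PresentedGroup R')
  refine ⟨Matrix.of fun p b => (M p.1 - 1) p.2 b, fun V W h v => ?_⟩
  funext p
  have h1 : gv φ (cob N W v) p = ((W (φ (FreeGroup.of p.1))).1 *ᵥ v - v) p.2 := rfl
  have h2 : ((Matrix.of fun p b => (M p.1 - 1) p.2 b :
      Matrix (Fin n × Fin m) (Fin m) (PZ κ m)).map (ev V) *ᵥ v) p =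
      ((M p.1 - 1).map (ev V) *ᵥ v) p.2 := rfl
  rw [h1, h2, hM p.1 V W h, Matrix.map_sub _ (map_sub (ev V)),
    Matrix.map_one _ (map_zero _) (map_one _), Matrix.sub_mulVec, Matrix.one_mulVec]

/-- The relations which the values on the generators satisfy. -/
theorem row_poly (hφ : Function.Surjective φ) :
    ∃ row : {u : FreeGroup (Fin n) // φ u = 1} × Fin m → Fin n × Fin m → PZ κ m,
      ∀ (V : κ → SpecialLinearGroup (Fin m) ℂ)
      (W : PresentedGroup R' →* SpecialLinearGroup (Fin m) ℂ),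
      (∀ p, W (PresentedGroup.of p) = V p) → ∀ z : Fin n × Fin m → ℂ,
      (∃ c : Z1 N W, gv φ c = z) ↔ ∀ a, ∑ j, ev V (row a j) * z j = 0 := by
  choose F hF using fun u : FreeGroup (Fin n) => az_poly (m := m) φ u
  refine ⟨fun a j => F a.1.1 j.1 a.2 j.2, fun V W h z => ?_⟩
  have h1 : ∀ (u : FreeGroup (Fin n)) (i : Fin m), az W φ (fun j b => z (j, b)) u 0 i =
      ∑ j : Fin n × Fin m, ev V (F u j.1 i j.2) * z j := by
    intro u i
    rw [hF u V W h, Finset.sum_apply, Fintype.sum_prod_type]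
    rfl
  constructor
  · rintro ⟨c, rfl⟩ ⟨⟨u, hu⟩, i⟩
    rw [← h1]
    have h2 := az_coc W φ c u
    rw [hu, Z1.one c] at h2
    exact (congrFun h2 i).symm
  · intro hz
    obtain ⟨c, hc⟩ := Z1.exists_surj W φ hφ (fun j b => z (j, b)) fun u hu => by
      funext i
      rw [h1]
      exact hz ⟨⟨u, hu⟩, i⟩
    refine ⟨c, funext fun p => ?_⟩
    change c.1 (φ (FreeGroup.of p.1)) p.2 = z p
    rw [hc]

end poly

theorem act_mul {Γ : Type} [Group Γ] {m : ℕ} (N : Subgroup Γ) [N.Normal]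
    (W : Γ →* SpecialLinearGroup (Fin m) ℂ) (g h : Γ) (c : Z1 N W) :
    act N W g (act N W h c) = act N W (g * h) c := by
  apply Subtype.ext
  funext x
  change (W g).1 *ᵥ ((W h).1 *ᵥ c.1 (cj N h (cj N g x))) =
    (W (g * h)).1 *ᵥ c.1 (cj N (g * h) x)
  have h1 : cj N h (cj N g x) = cj N (g * h) x := by
    apply Subtype.ext
    change h⁻¹ * (g⁻¹ * x.1 * g) * h = (g * h)⁻¹ * x.1 * (g * h)
    group
  have h2 : (W (g * h)).1 = (W g).1 * (W h).1 := by
    rw [map_mul]
    rfl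
  rw [h1, h2, Matrix.mulVec_mulVec]

theorem act_one {Γ : Type} [Group Γ] {m : ℕ} (N : Subgroup Γ) [N.Normal]
    (W : Γ →* SpecialLinearGroup (Fin m) ℂ) (c : Z1 N W) : act N W 1 c = c := by
  apply Subtype.ext
  funext x
  change (W 1).1 *ᵥ c.1 (cj N 1 x) = c.1 x
  have h1 : cj N 1 x = x := by
    apply Subtype.ext
    change (1 : Γ)⁻¹ * x.1 * 1 = x.1
    group
  have h2 : (W 1).1 = 1 := by
    rw [map_one]
    rfl
  rw [h1, h2, Matrix.one_mulVec]

end Vale.Agent.P002.H934
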