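import Vale.Agent.P002.H252.Tr3

/-!
# Lattices over the ring of integers of a number field become free over a fixed extension
-/

namespace Vale.Agent.P002.H934

open Matrix NumberField Vale.Agent.P002.H252

/-- The ring of integers of `L`, as a subring of `ℂ`. -/
noncomputable def OO (L : IntermediateField ℚ ℂ) : Subring ℂ :=
  L.toSubalgebra.toSubring ⊓ (integralClosure ℤ ℂ).toSubring

theorem mem_OO {L : IntermediateField ℚ ℂ} {z : ℂ} : z ∈ OO L ↔ z ∈ L ∧ IsIntegral ℤ z := Iff.rfl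

theorem OO_mono {L L₁ : IntermediateField ℚ ℂ} (h : L ≤ L₁) {z : ℂ} (hz : z ∈ OO L) :
    z ∈ OO L₁ := ⟨h hz.1, hz.2⟩

/-- The inclusion of the ring of integers. -/
noncomputable def cO (L : IntermediateField ℚ ℂ) : 𝓞 L →+* ℂ :=
  (L.val : L →+* ℂ).comp (algebraMap (𝓞 L) L)

theorem cO_eq {L : IntermediateField ℚ ℂ} (a : 𝓞 L) : cO L a = a.1.1 := rfl

theorem cO_mem {L : IntermediateField ℚ ℂ} (a : 𝓞 L) : cO L a ∈ OO L :=
  ⟨a.1.2, a.2.map (L.val.restrictScalars ℤ)⟩

theorem exists_cO {L : IntermediateField ℚ ℂ} {z : ℂ} (hz : z ∈ OO L) : ∃ a : 𝓞 L, cO L a = z := by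
  have h1 : IsIntegral ℤ (⟨z, hz.1⟩ : L) :=
    (isIntegral_algHom_iff (L.val.restrictScalars ℤ) Subtype.val_injective).1 hz.2
  exact ⟨⟨⟨z, hz.1⟩, h1⟩, rfl⟩

theorem cO_inj {L : IntermediateField ℚ ℂ} : Function.Injective (cO L) := fun a b h => by
  apply RingOfIntegers.ext
  exact Subtype.ext h

theorem span_mono_ring {M : Type*} [AddCommGroup M] [Module ℂ M] {A B : Subring ℂ} (h : A ≤ B)
    {S : Set M} {v : M} (hv : v ∈ Submodule.span A S) : v ∈ Submodule.span B S := by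
  induction hv using Submodule.span_induction with
  | mem v hv => exact Submodule.subset_span hv
  | zero => exact Submodule.zero_mem _
  | add u v _ _ hu hv => exact Submodule.add_mem _ hu hv
  | smul c v _ hv => exact Submodule.smul_mem _ (⟨c.1, h c.2⟩ : B) hv

/-- The elements of `I` generate a principal ideal over the ring of integers of `L₁`. -/
def Prin (L₁ : IntermediateField ℚ ℂ) (I : Set ℂ) : Prop :=
  ∃ t ∈ Submodule.span (OO L₁) I, ∀ a ∈ I, ∃ b ∈ OO L₁, a = b * t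

theorem Prin.mono {L₁ L₂ : IntermediateField ℚ ℂ} (h : L₁ ≤ L₂) {I : Set ℂ} (hI : Prin L₁ I) :
    Prin L₂ I := by
  obtain ⟨t, ht, h1⟩ := hI
  refine ⟨t, span_mono_ring (fun z hz => OO_mono h hz) ht, fun a ha => ?_⟩
  obtain ⟨b, hb, h2⟩ := h1 a ha
  exact ⟨b, OO_mono h hb, h2⟩

theorem exists_prin_one (L : IntermediateField ℚ ℂ) (hL : FiniteDimensional ℚ L)
    (I : Ideal (𝓞 L)) : ∃ L₁ : IntermediateField ℚ ℂ, FiniteDimensional ℚ L₁ ∧ L ≤ L₁ ∧
      Prin L₁ (cO L '' I) := by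
  have : NumberField L := { to_charZero := inferInstance, to_finiteDimensional := hL }
  obtain ⟨k, s, hs⟩ := Submodule.fg_iff_exists_fin_generating_family.1
    (IsNoetherian.noetherian I)
  have hsI : ∀ i, s i ∈ I := fun i => by
    rw [← hs]
    exact Submodule.subset_span ⟨i, rfl⟩
  obtain ⟨f, hf⟩ : ∃ f : Fin k → Zb, ∀ i, (f i : ℂ) = cO L (s i) :=
    ⟨fun i => ⟨cO L (s i), (cO_mem (s i)).2⟩, fun i => rfl⟩
  have := bezoutZb
  obtain ⟨⟨t, ht⟩⟩ := IsBezout.isPrincipal_of_FG (Ideal.span (Set.range f))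
    (Submodule.fg_span (Set.finite_range f))
  have ht1 : t ∈ Ideal.span (Set.range f) := by
    rw [ht]
    exact Submodule.mem_span_singleton_self t
  obtain ⟨c, hc⟩ := Ideal.mem_span_range_iff_exists_fun.1 ht1
  have hb : ∀ i, ∃ b : Zb, f i = b * t := by
    intro i
    have h1 : f i ∈ Ideal.span (Set.range f) := Ideal.subset_span ⟨i, rfl⟩
    rw [ht] at h1
    obtain ⟨b, hb⟩ := Submodule.mem_span_singleton.1 h1
    exact ⟨b, hb.symm⟩
  choose b hb using hb
  obtain ⟨E, hE⟩ : ∃ E : IntermediateField ℚ ℂ, E = IntermediateField.adjoin ℚ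
      (Set.range fun p : Fin k × Bool => if p.2 then (c p.1 : ℂ) else (b p.1 : ℂ)) := ⟨_, rfl⟩
  have hfd : FiniteDimensional ℚ E := by
    rw [hE]
    have : Finite (Set.range fun p : Fin k × Bool => if p.2 then (c p.1 : ℂ) else (b p.1 : ℂ)) :=
      Set.finite_range _
    refine IntermediateField.finiteDimensional_adjoin fun y hy => ?_
    obtain ⟨p, rfl⟩ := hy
    beta_reduce
    split_ifs
    · exact (c p.1).2.tower_top
    · exact (b p.1).2.tower_top
  have hcE : ∀ i, (c i : ℂ) ∈ OO (L ⊔ E) := fun i => by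
    refine ⟨(le_sup_right : E ≤ L ⊔ E) ?_, (c i).2⟩
    rw [hE]
    exact IntermediateField.subset_adjoin _ _ ⟨(i, true), by simp⟩
  have hbE : ∀ i, (b i : ℂ) ∈ OO (L ⊔ E) := fun i => by
    refine ⟨(le_sup_right : E ≤ L ⊔ E) ?_, (b i).2⟩
    rw [hE]
    exact IntermediateField.subset_adjoin _ _ ⟨(i, false), by simp⟩
  refine ⟨L ⊔ E, inferInstance, le_sup_left, (t : ℂ), ?_, ?_⟩
  · have h1 : (t : ℂ) = ∑ i, (⟨(c i : ℂ), hcE i⟩ : OO (L ⊔ E)) • cO L (s i) := by
      rw [← hc]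
      have h2 : ((∑ i, c i * f i : Zb) : ℂ) = (algebraMap Zb ℂ) (∑ i, c i * f i) := rfl
      rw [h2, map_sum]
      refine Finset.sum_congr rfl fun i _ => ?_
      rw [map_mul]
      change (c i : ℂ) * (f i : ℂ) = (c i : ℂ) * cO L (s i)
      rw [hf]
    rw [h1]
    exact Submodule.sum_mem _ fun i _ => Submodule.smul_mem _ _
      (Submodule.subset_span ⟨s i, hsI i, rfl⟩)
  · rintro _ ⟨a, ha, rfl⟩
    rw [SetLike.mem_coe, ← hs] at ha
    obtain ⟨d, hd⟩ := Ideal.mem_span_range_iff_exists_fun.1 ha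
    refine ⟨∑ i, cO L (d i) * (b i : ℂ), sum_mem fun i _ =>
      mul_mem (OO_mono le_sup_left (cO_mem _)) (hbE i), ?_⟩
    rw [← hd, map_sum, Finset.sum_mul]
    refine Finset.sum_congr rfl fun i _ => ?_
    have h3 : cO L (s i) = (b i : ℂ) * (t : ℂ) := by
      rw [← hf, hb]
      rfl
    rw [map_mul, h3, mul_assoc]

/-- All ideals become principal over one finite extension. -/
theorem exists_prin (L : IntermediateField ℚ ℂ) (hL : FiniteDimensional ℚ L) :
    ∃ L₁ : IntermediateField ℚ ℂ, FiniteDimensional ℚ L₁ ∧ L ≤ L₁ ∧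
      ∀ I : Ideal (𝓞 L), Prin L₁ (cO L '' I) := by
  have : NumberField L := { to_charZero := inferInstance, to_finiteDimensional := hL }
  choose J hJ using ClassGroup.mk0_surjective (R := 𝓞 L)
  choose M hM hLM hMP using fun x : ClassGroup (𝓞 L) => exists_prin_one L hL (J x)
  have hfd : FiniteDimensional ℚ (⨆ x, M x : IntermediateField ℚ ℂ) :=
    IntermediateField.finiteDimensional_iSup_of_finite
  refine ⟨⨆ x, M x, hfd, (hLM 1).trans (le_iSup M 1), fun I => ?_⟩
  by_cases hI : I = ⊥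
  · refine ⟨0, Submodule.zero_mem _, ?_⟩
    rintro _ ⟨a, ha, rfl⟩
    rw [hI] at ha
    have ha0 : a = 0 := ha
    exact ⟨0, zero_mem _, by rw [ha0, map_zero, mul_zero]⟩
  obtain ⟨I', hI'⟩ : ∃ I' : nonZeroDivisors (Ideal (𝓞 L)), (I' : Ideal (𝓞 L)) = I :=
    ⟨⟨I, mem_nonZeroDivisors_of_ne_zero hI⟩, rfl⟩
  obtain ⟨x, y, hx, hy, hxy⟩ := ClassGroup.mk0_eq_mk0_iff.1 (hJ (ClassGroup.mk0 I')).symm
  rw [hI'] at hxy
  obtain ⟨t, ht, hta⟩ := (hMP (ClassGroup.mk0 I')).mono (le_iSup M (ClassGroup.mk0 I'))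
  obtain ⟨J', hJ'⟩ : ∃ J', J' = ((J (ClassGroup.mk0 I') : nonZeroDivisors (Ideal (𝓞 L))) :
    Ideal (𝓞 L)) := ⟨_, rfl⟩
  rw [← hJ'] at hxy ht hta
  have hx0 : cO L x ≠ 0 := fun h => hx (cO_inj (h.trans (map_zero _).symm))
  have h1 : ∀ u ∈ Submodule.span (OO (⨆ x, M x)) (cO L '' J'),
      ∃ u' ∈ Submodule.span (OO (⨆ x, M x)) (cO L '' I), cO L x * u' = cO L y * u := by
    intro u hu
    induction hu using Submodule.span_induction with
    | mem u hu =>
      obtain ⟨a, ha, rfl⟩ := hu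
      have h2 : y * a ∈ Ideal.span {x} * I := by
        rw [hxy]
        exact Ideal.mul_mem_mul (Ideal.mem_span_singleton_self y) ha
      obtain ⟨z, hz, hz'⟩ := Ideal.mem_span_singleton_mul.1 h2
      refine ⟨cO L z, Submodule.subset_span ⟨z, hz, rfl⟩, ?_⟩
      rw [← map_mul, hz', map_mul]
    | zero => exact ⟨0, Submodule.zero_mem _, by rw [mul_zero, mul_zero]⟩
    | add u v _ _ hu hv =>
      obtain ⟨u', hu', h3⟩ := hu
      obtain ⟨v', hv', h4⟩ := hv
      exact ⟨u' + v', Submodule.add_mem _ hu' hv', by rw [mul_add, mul_add, h3, h4]⟩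
    | smul c u _ hu =>
      obtain ⟨u', hu', h3⟩ := hu
      exact ⟨c • u', Submodule.smul_mem _ c hu', by rw [mul_smul_comm, mul_smul_comm, h3]⟩
  obtain ⟨t', ht', htt⟩ := h1 t ht
  refine ⟨t', ht', ?_⟩
  rintro _ ⟨a, ha, rfl⟩
  have h2 : x * a ∈ Ideal.span {y} * J' := by
    rw [← hxy]
    exact Ideal.mul_mem_mul (Ideal.mem_span_singleton_self x) ha
  obtain ⟨z, hz, hz'⟩ := Ideal.mem_span_singleton_mul.1 h2
  obtain ⟨b, hb, hbz⟩ := hta (cO L z) ⟨z, hz, rfl⟩
  refine ⟨b, hb, mul_left_cancel₀ hx0 ?_⟩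
  rw [← map_mul, ← hz', map_mul, hbz, mul_left_comm, mul_left_comm (cO L x), htt]

/-- The lattices in `ℂ ^ n` over `𝓞 L` become free over `𝓞 L₁`. -/
def Lat (L L₁ : IntermediateField ℚ ℂ) (n : ℕ) : Prop :=
  ∀ S : Set (Fin n → ℂ), (∀ v ∈ S, ∀ i, v i ∈ OO L) → ∃ P : Matrix (Fin n) (Fin n) ℂ,
    (∀ i j, P i j ∈ OO L₁) ∧ ∀ v, v ∈ Submodule.span (OO L₁) S ↔
      ∃ u : Fin n → ℂ, (∀ i, u i ∈ OO L₁) ∧ v = P *ᵥ u

theorem span_entries {L : IntermediateField ℚ ℂ} {n : ℕ} {S : Set (Fin n → ℂ)}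
    (hS : ∀ v ∈ S, ∀ i, v i ∈ OO L) {v : Fin n → ℂ} (hv : v ∈ Submodule.span (OO L) S)
    (i : Fin n) : v i ∈ OO L := by
  induction hv using Submodule.span_induction with
  | mem v hv => exact hS v hv i
  | zero => exact zero_mem _
  | add u v _ _ hu hv => exact add_mem hu hv
  | smul c v _ hv => exact mul_mem c.2 hv

theorem exists_lat (n : ℕ) : ∀ L : IntermediateField ℚ ℂ, FiniteDimensional ℚ L →
    ∃ L₁ : IntermediateField ℚ ℂ, FiniteDimensional ℚ L₁ ∧ L ≤ L₁ ∧ Lat L L₁ n := by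
  induction n with
  | zero =>
    intro L hL
    refine ⟨L, hL, le_rfl, fun S hS => ⟨1, fun i => i.elim0, fun v => ?_⟩⟩
    have hv : v = 0 := Subsingleton.elim _ _
    rw [hv]
    exact ⟨fun _ => ⟨0, fun i => i.elim0, Subsingleton.elim _ _⟩, fun _ => Submodule.zero_mem _⟩
  | succ n ih =>
    intro L hL
    obtain ⟨L₁, hL₁, hLL₁, hP⟩ := exists_prin L hL
    obtain ⟨L₂, hL₂, hLL₂, hlat⟩ := ih L₁ hL₁
    refine ⟨L₂, hL₂, hLL₁.trans hLL₂, fun S hS => ?_⟩
    have h12 : OO L₁ ≤ OO L₂ := fun z hz => OO_mono hLL₂ hz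
    have h01 : OO L ≤ OO L₁ := fun z hz => OO_mono hLL₁ hz
    -- the ideal of the first coordinates
    obtain ⟨I, hI⟩ : ∃ I : Ideal (𝓞 L), ∀ a, a ∈ I ↔ ∃ v ∈ Submodule.span (OO L) S,
        v 0 = cO L a := by
      refine ⟨{ carrier := {a | ∃ v ∈ Submodule.span (OO L) S, v 0 = cO L a}
                add_mem' := ?_
                zero_mem' := ⟨0, Submodule.zero_mem _, by rw [map_zero]; rfl⟩
                smul_mem' := ?_ }, fun a => Iff.rfl⟩
      · rintro a b ⟨v, hv, h1⟩ ⟨u, hu, h2⟩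
        exact ⟨v + u, Submodule.add_mem _ hv hu, by rw [map_add, ← h1, ← h2]; rfl⟩
      · rintro c a ⟨v, hv, h1⟩
        refine ⟨(⟨cO L c, cO_mem c⟩ : OO L) • v, Submodule.smul_mem _ _ hv, ?_⟩
        rw [smul_eq_mul, map_mul, ← h1]
        rfl
    obtain ⟨t, ht, hta⟩ := hP I
    have h1 : ∀ u ∈ Submodule.span (OO L₁) (cO L '' I),
        ∃ v ∈ Submodule.span (OO L₁) S, v 0 = u := by
      intro u hu
      induction hu using Submodule.span_induction with
      | mem u hu =>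
        obtain ⟨a, ha, rfl⟩ := hu
        obtain ⟨v, hv, h2⟩ := (hI a).1 ha
        exact ⟨v, span_mono_ring h01 hv, h2⟩
      | zero => exact ⟨0, Submodule.zero_mem _, rfl⟩
      | add u v _ _ hu hv =>
        obtain ⟨u', hu', h3⟩ := hu
        obtain ⟨v', hv', h4⟩ := hv
        exact ⟨u' + v', Submodule.add_mem _ hu' hv', by rw [← h3, ← h4]; rfl⟩
      | smul c u _ hu =>
        obtain ⟨u', hu', h3⟩ := hu
        exact ⟨c • u', Submodule.smul_mem _ c hu', by rw [← h3]; rfl⟩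
    obtain ⟨m₀, hm₀, hm₀t⟩ := h1 t ht
    have hSt : ∀ v ∈ S, ∃ b ∈ OO L₁, v 0 = b * t := by
      intro v hv
      obtain ⟨a, ha⟩ := exists_cO (hS v hv 0)
      obtain ⟨b, hb, h2⟩ := hta (cO L a) ⟨a, (hI a).2 ⟨v, Submodule.subset_span hv, ha.symm⟩, rfl⟩
      exact ⟨b, hb, by rw [← ha, h2]⟩
    -- the kernel
    obtain ⟨S', hS'⟩ : ∃ S' : Set (Fin n → ℂ), S' = {v' | (Fin.cons 0 v' : Fin (n + 1) → ℂ) ∈
      Submodule.span (OO L₁) S} := ⟨_, rfl⟩
    obtain ⟨P', hP'e, hP'⟩ := hlat S' (by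
      intro v' hv' i
      rw [hS'] at hv'
      exact span_entries (fun v hv i => OO_mono hLL₁ (hS v hv i)) hv' i.succ)
    have hcons : ∀ v' ∈ Submodule.span (OO L₂) S', (Fin.cons 0 v' : Fin (n + 1) → ℂ) ∈
        Submodule.span (OO L₂) S := by
      intro v' hv'
      induction hv' using Submodule.span_induction with
      | mem v' hv' =>
        rw [hS'] at hv'
        exact span_mono_ring h12 hv'
      | zero =>
        have h2 : (Fin.cons 0 0 : Fin (n + 1) → ℂ) = 0 := by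
          funext i
          exact Fin.cases rfl (fun _ => rfl) i
        rw [h2]
        exact Submodule.zero_mem _
      | add u v _ _ hu hv =>
        have h2 : (Fin.cons 0 (u + v) : Fin (n + 1) → ℂ) = Fin.cons 0 u + Fin.cons 0 v := by
          funext i
          exact Fin.cases (add_zero 0).symm (fun _ => rfl) i
        rw [h2]
        exact Submodule.add_mem _ hu hv
      | smul c u _ hu =>
        have h2 : (Fin.cons 0 (c • u) : Fin (n + 1) → ℂ) = c • Fin.cons 0 u := by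
          funext i
          exact Fin.cases (mul_zero (c : ℂ)).symm (fun _ => rfl) i
        rw [h2]
        exact Submodule.smul_mem _ c hu
    obtain ⟨P, hPdef⟩ : ∃ P : Matrix (Fin (n + 1)) (Fin (n + 1)) ℂ, P = Matrix.of fun i =>
        Fin.cons (m₀ i) fun j => (Fin.cons 0 (fun i' => P' i' j) : Fin (n + 1) → ℂ) i := ⟨_, rfl⟩
    have hPu : ∀ u : Fin (n + 1) → ℂ, P *ᵥ u = u 0 • m₀ +
        Fin.cons 0 (P' *ᵥ fun j => u j.succ) := by
      intro u
      funext i
      change ∑ j, P i j * u j = u 0 * m₀ i +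
        (Fin.cons 0 (P' *ᵥ fun j => u j.succ) : Fin (n + 1) → ℂ) i
      rw [Fin.sum_univ_succ, hPdef]
      congr 1
      · exact mul_comm _ _
      · refine Fin.cases ?_ (fun i' => ?_) i
        · change ∑ j : Fin n, (0 : ℂ) * u j.succ = 0
          simp
        · rfl
    refine ⟨P, fun i j => ?_, fun v => ⟨fun hv => ?_, ?_⟩⟩
    · rw [hPdef]
      refine Fin.cases ?_ (fun j' => ?_) j
      · exact OO_mono hLL₂ (span_entries (fun v hv i => OO_mono hLL₁ (hS v hv i)) hm₀ i)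
      · refine Fin.cases ?_ (fun i' => ?_) i
        · exact zero_mem (OO L₂)
        · exact hP'e i' j'
    · induction hv using Submodule.span_induction with
      | mem v hv =>
        obtain ⟨b, hb, h2⟩ := hSt v hv
        have h3 : v - b • m₀ = Fin.cons 0 (fun i => v i.succ - b * m₀ i.succ) := by
          funext i
          refine Fin.cases ?_ (fun i' => ?_) i
          · change v 0 - b * m₀ 0 = 0
            rw [h2, hm₀t, sub_self]
          · rfl
        have h4 : (fun i => v i.succ - b * m₀ i.succ : Fin n → ℂ) ∈ S' := by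
          rw [hS']
          change (Fin.cons 0 (fun i => v i.succ - b * m₀ i.succ) : Fin (n + 1) → ℂ) ∈
            Submodule.span (OO L₁) S
          rw [← h3]
          exact Submodule.sub_mem _ (Submodule.subset_span hv)
            (Submodule.smul_mem _ (⟨b, hb⟩ : OO L₁) hm₀)
        obtain ⟨u', hu', h5⟩ := (hP' _).1 (Submodule.subset_span h4)
        refine ⟨Fin.cons b u', fun i => ?_, ?_⟩
        · refine Fin.cases ?_ (fun i' => ?_) i
          · exact OO_mono hLL₂ hb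
          · exact hu' i'
        · rw [hPu]
          change v = b • m₀ + Fin.cons 0 (P' *ᵥ u')
          rw [← h5, ← h3]
          abel
      | zero => exact ⟨0, fun i => zero_mem _, by rw [Matrix.mulVec_zero]⟩
      | add x y _ _ hx hy =>
        obtain ⟨u, hu, h3⟩ := hx
        obtain ⟨v, hv, h4⟩ := hy
        exact ⟨u + v, fun i => add_mem (hu i) (hv i), by rw [Matrix.mulVec_add, ← h3, ← h4]⟩
      | smul c x _ hx =>
        obtain ⟨u, hu, h3⟩ := hx
        refine ⟨(c : ℂ) • u, fun i => mul_mem c.2 (hu i), ?_⟩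
        rw [Matrix.mulVec_smul, ← h3]
        rfl
    · rintro ⟨u, hu, rfl⟩
      rw [hPu]
      refine Submodule.add_mem _ ?_ (hcons _ ((hP' _).2 ⟨_, fun i => hu i.succ, rfl⟩))
      exact Submodule.smul_mem _ (⟨u 0, hu 0⟩ : OO L₂) (span_mono_ring h12 hm₀)

end Vale.Agent.P002.H934
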