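import Vale.Agent.P002.H934.Inv
import Vale.Agent.P002.H934.Bridge
import Vale.Agent.P002.H934.Tower
import Vale.Agent.P002.H252.Tr3
import Vale.Agent.P002.H252.DefsC

/-!
# Direct images: fields, conjugation
-/

namespace Vale.Agent.P002.H934

open Matrix NumberField Vale.Agent.P002R.Orb Vale.Agent.P002.H252

variable {ι κ : Type} {m n r : ℕ} {R : Set (FreeGroup ι)} {R' : Set (FreeGroup κ)}

theorem rep_of_hom (ρ : PresentedGroup R →* SpecialLinearGroup (Fin r) ℂ)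
    {X : ι → SpecialLinearGroup (Fin r) ℂ} (h : ∀ p, ρ (PresentedGroup.of p) = X p) :
    IsRep R X := by
  intro w hw
  have h1 : FreeGroup.lift X = ρ.comp (PresentedGroup.mk R) := by
    ext p : 1
    rw [FreeGroup.lift_apply_of, MonoidHom.comp_apply, ← h]
    rfl
  rw [h1, MonoidHom.comp_apply, PresentedGroup.one_of_mem hw, map_one]

theorem mem_O {L : IntermediateField ℚ ℂ} {z : ℂ} (hz : z ∈ L) (hi : IsIntegral ℤ z) :
    ∃ a : 𝓞 L, z = a.1.1 := by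
  have h1 : IsIntegral ℤ (⟨z, hz⟩ : L) :=
    (isIntegral_algHom_iff (L.val.restrictScalars ℤ) Subtype.val_injective).1 hi
  exact ⟨⟨⟨z, hz⟩, h1⟩, rfl⟩

/-- The number field. -/
theorem exists_L [Finite ι] (L' : IntermediateField ℚ ℂ) (hL' : FiniteDimensional ℚ L')
    (χ : PresentedGroup R →* ℂˣ) (hχ : ∀ g, IsIntegral ℤ (χ g).1) :
    ∃ L : IntermediateField ℚ ℂ, FiniteDimensional ℚ L ∧ L' ≤ L ∧
      ∀ p : ι, ((χ (PresentedGroup.of p) : ℂˣ) : ℂ) ∈ L := by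
  obtain ⟨E, hE⟩ : ∃ E : IntermediateField ℚ ℂ, E = IntermediateField.adjoin ℚ
      (Set.range fun p : ι => ((χ (PresentedGroup.of p) : ℂˣ) : ℂ)) := ⟨_, rfl⟩
  have hfd : FiniteDimensional ℚ E := by
    rw [hE]
    have : Finite (Set.range fun p : ι => ((χ (PresentedGroup.of p) : ℂˣ) : ℂ)) :=
      Set.finite_range _
    refine IntermediateField.finiteDimensional_adjoin fun y hy => ?_
    obtain ⟨p, rfl⟩ := hy
    exact (hχ _).tower_top
  refine ⟨L' ⊔ E, inferInstance, le_sup_left, fun p => ?_⟩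
  apply (le_sup_right : E ≤ L' ⊔ E)
  rw [hE]
  exact IntermediateField.subset_adjoin _ _ ⟨p, rfl⟩

theorem value_mem {s : Subring ℂ} (F : MvPolynomial (ι × Fin r × Fin r) ℤ)
    (X : ι → SpecialLinearGroup (Fin r) ℂ) (h : ∀ p i j, (X p).1 i j ∈ s) : value F X ∈ s := by
  refine MvPolynomial.eval₂_mem (fun i _ => ?_) fun p => h p.1 p.2.1 p.2.2
  rw [eq_intCast]
  exact intCast_mem s _

/-- Invertible matrices can be scaled. -/
theorem exists_sl (U : (Matrix (Fin r) (Fin r) ℂ)ˣ) : ∃ Q : SpecialLinearGroup (Fin r) ℂ,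
    ∀ M N : Matrix (Fin r) (Fin r) ℂ, M * U.1 = U.1 * N → (Q⁻¹).1 * M * Q.1 = N := by
  rcases Nat.eq_zero_or_pos r with hr | hr
  · subst hr
    exact ⟨1, fun M N _ => Subsingleton.elim _ _⟩
  have hd : U.1.det ≠ 0 := ((Matrix.isUnit_iff_isUnit_det _).1 U.isUnit).ne_zero
  obtain ⟨c, hc⟩ := IsAlgClosed.exists_pow_nat_eq (U.1.det)⁻¹ hr
  obtain ⟨Q, hQ⟩ : ∃ Q : SpecialLinearGroup (Fin r) ℂ, Q.1 = c • U.1 := by
    refine ⟨⟨c • U.1, ?_⟩, rfl⟩
    rw [Matrix.det_smul, Fintype.card_fin, hc, inv_mul_cancel₀ hd]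
  refine ⟨Q, fun M N h => ?_⟩
  have h1 : (Q⁻¹).1 * Q.1 = 1 := congrArg Subtype.val (inv_mul_cancel Q)
  have h2 : M * Q.1 = Q.1 * N := by rw [hQ, Matrix.mul_smul, h, Matrix.smul_mul]
  rw [Matrix.mul_assoc, h2, ← Matrix.mul_assoc, h1, Matrix.one_mul]

end Vale.Agent.P002.H934
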