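import Mathlib

/-!
# Direct images: linear algebra
-/

namespace Vale.Agent.P002.H934

open Matrix

variable {m r : ℕ}

/-- Selection of rows. -/
theorem exists_rows {J : Type*} [Fintype J] [DecidableEq J] (hJ : Fintype.card J = m + r)
    (S : Matrix J (Fin m) ℂ) (hS : Function.Injective S.mulVec) :
    ∃ σ : Fin m ⊕ Fin r ≃ J, (S.submatrix σ id).toRows₁.det ≠ 0 := by
  classical
  have h1 : Submodule.span ℂ (Set.range S.row) = ⊤ := by
    apply Submodule.eq_top_of_finrank_eq
    rw [← Matrix.rank_eq_finrank_span_row, Module.finrank_fin_fun]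
    have h2 : LinearMap.ker S.mulVecLin = ⊥ := LinearMap.ker_eq_bot.2 hS
    have h3 := LinearMap.finrank_range_add_finrank_ker S.mulVecLin
    rw [h2, finrank_bot, add_zero, Module.finrank_fin_fun] at h3
    exact h3
  obtain ⟨κ, a, ha, hsp, hli⟩ := exists_linearIndependent' ℂ S.row
  have hfin : Finite κ := Finite.of_injective a ha
  have := Fintype.ofFinite κ
  have hcard : Fintype.card κ = m := by
    have hb := finrank_span_eq_card hli
    rw [hsp, h1, finrank_top, Module.finrank_fin_fun] at hb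
    exact hb.symm
  obtain ⟨ε⟩ : Nonempty (Fin m ≃ κ) := ⟨(Fintype.equivFinOfCardEq hcard).symm⟩
  obtain ⟨g, hg⟩ : ∃ g : Fin m → J, g = a ∘ ε := ⟨_, rfl⟩
  have hgi : Function.Injective g := by
    rw [hg]
    exact ha.comp ε.injective
  have hc : Fintype.card ((Set.range g)ᶜ : Set J) = r := by
    rw [Fintype.card_compl_set, Set.card_range_of_injective hgi, hJ, Fintype.card_fin]
    omega
  obtain ⟨τ⟩ : Nonempty (Fin r ≃ ((Set.range g)ᶜ : Set J)) :=
    ⟨(Fintype.equivFinOfCardEq hc).symm⟩
  refine ⟨((Equiv.ofInjective g hgi).sumCongr τ).trans (Equiv.Set.sumCompl (Set.range g)), ?_⟩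
  have h5 : (S.submatrix (((Equiv.ofInjective g hgi).sumCongr τ).trans
      (Equiv.Set.sumCompl (Set.range g))) id).toRows₁ = Matrix.of fun i => S.row (g i) := by
    ext i j
    rfl
  rw [h5, ← isUnit_iff_ne_zero, ← Matrix.isUnit_iff_isUnit_det,
    ← Matrix.linearIndependent_rows_iff_isUnit]
  have h6 : (Matrix.of fun i => S.row (g i)).row = (S.row ∘ a) ∘ ε := by
    rw [hg]
    rfl
  rw [h6]
  exact hli.comp ε ε.injective

end Vale.Agent.P002.H934
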