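import Vale.Agent.P002.H934.Poly
import Vale.Agent.P002.H934.Lin

/-!
# Direct images: invariants, homogenisation
-/

namespace Vale.Agent.P002.H934

open Matrix Vale.Agent.P002R.Orb

/-- Clearing denominators. -/
theorem exists_hom {τ τ' : Type*} (a : τ → MvPolynomial τ' ℂ) (d : MvPolynomial τ' ℂ)
    (F : MvPolynomial τ ℂ) : ∃ (G : MvPolynomial τ' ℂ) (N : ℕ), ∀ v : τ' → ℂ,
      MvPolynomial.eval v d ≠ 0 → MvPolynomial.eval v G = (MvPolynomial.eval v d) ^ N *
        MvPolynomial.eval (fun t => (MvPolynomial.eval v d)⁻¹ * MvPolynomial.eval v (a t)) F := by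
  induction F using MvPolynomial.induction_on with
  | C c =>
    refine ⟨MvPolynomial.C c, 0, fun v _ => ?_⟩
    rw [MvPolynomial.eval_C, MvPolynomial.eval_C, pow_zero, one_mul]
  | add F F' h h' =>
    obtain ⟨G, N, hG⟩ := h
    obtain ⟨G', N', hG'⟩ := h'
    refine ⟨d ^ N' * G + d ^ N * G', N + N', fun v hv => ?_⟩
    rw [map_add, map_mul, map_mul, map_pow, map_pow, hG v hv, hG' v hv, map_add]
    ring
  | mul_X F t h =>
    obtain ⟨G, N, hG⟩ := h
    refine ⟨G * a t, N + 1, fun v hv => ?_⟩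
    rw [map_mul, hG v hv, map_mul, MvPolynomial.eval_X]
    field_simp
    ring

variable {ι κ : Type} {m n r : ℕ} {R : Set (FreeGroup ι)} {R' : Set (FreeGroup κ)}

/-- The entries of a tuple of matrices. -/
def pt (X : ι → SpecialLinearGroup (Fin r) ℂ) (p : ι × Fin r × Fin r) : ℂ :=
  (X p.1).1 p.2.1 p.2.2

theorem value_eq (F : MvPolynomial (ι × Fin r × Fin r) ℂ)
    (X : ι → SpecialLinearGroup (Fin r) ℂ) : value F X = MvPolynomial.eval (pt X) F := rfl

theorem eval_map_ev (F : PZ κ m) (V : κ → SpecialLinearGroup (Fin m) ℂ) :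
    MvPolynomial.eval (pt V) (MvPolynomial.map (Int.castRingHom ℂ) F) = ev V F := by
  rw [MvPolynomial.eval_map]
  rfl

/-- Invariants do not change under conjugation by invertible matrices. -/
theorem value_conj {S : Type} [CommRing S] [Algebra S ℂ]
    {F : MvPolynomial (ι × Fin r × Fin r) S} (hF : IsInvariant R F)
    {X Y : ι → SpecialLinearGroup (Fin r) ℂ} (hX : IsRep R X)
    (T : (Matrix (Fin r) (Fin r) ℂ)ˣ) (h : ∀ p, (X p).1 * T.1 = T.1 * (Y p).1) :
    value F X = value F Y := by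
  rcases Nat.eq_zero_or_pos r with hr | hr
  · subst hr
    congr 1
    funext p
    apply Subtype.ext
    ext i
    exact i.elim0
  have hd : T.1.det ≠ 0 := ((Matrix.isUnit_iff_isUnit_det _).1 T.isUnit).ne_zero
  obtain ⟨c, hc⟩ := IsAlgClosed.exists_pow_nat_eq (T.1.det)⁻¹ hr
  have hc0 : c ≠ 0 := by
    rintro rfl
    rw [zero_pow hr.ne'] at hc
    exact inv_ne_zero hd hc.symm
  obtain ⟨P, hP⟩ : ∃ P : SpecialLinearGroup (Fin r) ℂ, P.1 = c • T.1 := by
    refine ⟨⟨c • T.1, ?_⟩, rfl⟩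
    rw [Matrix.det_smul, Fintype.card_fin, hc, inv_mul_cancel₀ hd]
  have h1 := hF ℂ X P⁻¹ hX
  rw [← h1]
  congr 1
  funext p
  have h2 : X p * P = P * Y p := by
    apply Subtype.ext
    change (X p).1 * P.1 = P.1 * (Y p).1
    rw [hP, Matrix.mul_smul, Matrix.smul_mul, h]
  rw [inv_inv, mul_assoc, h2, ← mul_assoc, inv_mul_cancel, one_mul]

end Vale.Agent.P002.H934
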