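import Vale.Agent.P002.H934.Par
import Vale.Agent.P002.H934.Tower

/-!
# Direct images: the matrices and an integral structure in the general case
-/

namespace Vale.Agent.P002.H934

open Matrix NumberField Vale.Agent.P002R Vale.Agent.P002.H252

variable {m n r q d b : ℕ}

section sit

variable {Γ G : Type} [Group Γ] [Group G] {Q : Type} {row : Q → Fin n × Fin m → ℂ}
  {S : Matrix (Fin n × Fin m) (Fin m) ℂ}

/-- The situation at a direct image. -/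
theorem exists_sit (π : Γ →* G) (A : Set Γ) (W : Γ →* SpecialLinearGroup (Fin m) ℂ)
    (φ : FreeGroup (Fin n) →* π.ker) (hφ : Function.Surjective φ)
    (hrow : ∀ z : Fin n × Fin m → ℂ,
      (∃ c : ZP π.ker A W, gv φ c.1 = z) ↔ ∀ a, ∑ j, row a j * z j = 0)
    (hS : ∀ v, gv φ (cob π.ker W v) = S *ᵥ v)
    (e : ZP π.ker A W →ₗ[ℂ] (Fin r → ℂ)) (hs : Function.Surjective e)
    (he : ∀ c, e c = 0 ↔ ∃ v, c.1 = cob π.ker W v) :
    ∃ s : Sit (ZP π.ker A W) row S r, (∀ c, s.c c = gv φ c.1) ∧ s.e = e := by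
  have hinj : Function.Injective (gv φ : Z1 π.ker W →ₗ[ℂ] (Fin n × Fin m → ℂ)) := by
    intro c d h
    refine Z1.ext_surj W φ hφ c d fun j => funext fun i => ?_
    exact congrFun h (j, i)
  refine ⟨⟨gv φ ∘ₗ (ZP π.ker A W).subtype, hinj.comp Subtype.val_injective, hrow, e, hs,
    fun x => ?_, fun v => ⟨⟨cob π.ker W v, cob_mem_ZP v⟩, hS v⟩⟩, fun c => rfl, rfl⟩
  rw [he]
  constructor
  · rintro ⟨v, hv⟩
    refine ⟨v, ?_⟩
    rw [← hS, ← hv]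
    rfl
  · rintro ⟨v, hv⟩
    exact ⟨v, hinj (by rw [hS]; exact hv)⟩

/-- The matrices of a direct image, and an integral structure. -/
theorem conj_of_sit (π : Γ →* G) (A : Set Γ) (hA : ∀ g x, x ∈ A → g⁻¹ * x * g ∈ A)
    (χ : G →* ℂˣ) (W : Γ →* SpecialLinearGroup (Fin m) ℂ)
    (ρ : G →* SpecialLinearGroup (Fin r) ℂ) (φ : FreeGroup (Fin n) →* π.ker)
    (s : Sit (ZP π.ker A W) row S r) (hc : ∀ c, s.c c = gv φ c.1)
    (heq : ∀ g c c', c'.1 = act π.ker W g c.1 →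
      (ρ (π g)).1 *ᵥ s.e c = (χ (π g) : ℂ) • s.e c')
    (ρ' : Fin q → Q) (σ₁ : Fin q ⊕ Fin d ≃ Fin n × Fin m) (σ₂ : Fin b ⊕ Fin r ≃ Fin d)
    (τ : Fin b → Fin m)
    (h1 : (Ep (Matrix.of fun i => row (ρ' i)) σ₁).det ≠ 0) (h2 : (S1 S σ₁ σ₂ τ).det ≠ 0) :
    ∃ T : (Matrix (Fin r) (Fin r) ℂ)ˣ,
      (∀ (g : Γ) (B : Matrix (Fin n × Fin m) (Fin n × Fin m) ℂ),
        (∀ c : Z1 π.ker W, gv φ (act π.ker W g c) = B *ᵥ gv φ c) →
        (ρ (π g)).1 * T.1 = T.1 * (((χ (π g) : ℂ) *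
          ((Ep (Matrix.of fun i => row (ρ' i)) σ₁).det * (S1 S σ₁ σ₂ τ).det)⁻¹) •
          (E1 S σ₁ σ₂ τ * B * X1 (Matrix.of fun i => row (ρ' i)) σ₁ σ₂))) ∧
      ∀ L L₁ : IntermediateField ℚ ℂ, Lat L L₁ r →
        ∀ B : Γ → Matrix (Fin n × Fin m) (Fin n × Fin m) ℂ,
        (∀ g, ∀ c : Z1 π.ker W, gv φ (act π.ker W g c) = B g *ᵥ gv φ c) →
        (∀ g i j,
          (E1 S σ₁ σ₂ τ * B g * X1 (Matrix.of fun i => row (ρ' i)) σ₁ σ₂) i j ∈ OO L) →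
        ∃ P : (Matrix (Fin r) (Fin r) ℂ)ˣ, ∀ g, ∃ D : Matrix (Fin r) (Fin r) ℂ,
          (∀ i j, D i j ∈ OO L₁) ∧
          (ρ (π g)).1 * (T.1 * P.1) = (T.1 * P.1) * ((χ (π g) : ℂ) • D) := by
  classical
  obtain ⟨ac, hac⟩ : ∃ ac : Γ → ZP π.ker A W → ZP π.ker A W,
      ∀ g c, (ac g c).1 = act π.ker W g c.1 :=
    ⟨fun g c => ⟨act π.ker W g c.1, act_mem_ZP hA g c.2⟩, fun g c => rfl⟩
  have heq' : ∀ g c, (ρ (π g)).1 *ᵥ s.e c = (χ (π g) : ℂ) • s.e (ac g c) :=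
    fun g c => heq g c _ (hac g c)
  have ac_one : ∀ c, ac 1 c = c := fun c => Subtype.ext (by rw [hac, act_one])
  have ac_mul : ∀ g h c, ac g (ac h c) = ac (g * h) c := fun g h c =>
    Subtype.ext (by rw [hac, hac, hac, act_mul])
  obtain ⟨T, hT1, hT2⟩ := s.exists_T ρ' σ₁ σ₂ τ h1 h2
  choose x hx hxe using hT2
  obtain ⟨X, hX⟩ : ∃ X, X = X1 (Matrix.of fun i => row (ρ' i)) σ₁ σ₂ := ⟨_, rfl⟩
  obtain ⟨U, hU⟩ : ∃ U, U = E1 S σ₁ σ₂ τ := ⟨_, rfl⟩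
  obtain ⟨d₁, hd₁⟩ : ∃ d₁, d₁ = (Ep (Matrix.of fun i => row (ρ' i)) σ₁).det := ⟨_, rfl⟩
  obtain ⟨d₂, hd₂⟩ : ∃ d₂, d₂ = (S1 S σ₁ σ₂ τ).det := ⟨_, rfl⟩
  rw [← hX] at hx ⊢
  rw [← hU] at hT1 ⊢
  rw [← hd₁] at h1 hxe ⊢
  rw [← hd₂] at h2 hT1 ⊢
  have key : ∀ (g : Γ) (B : Matrix (Fin n × Fin m) (Fin n × Fin m) ℂ),
      (∀ c : Z1 π.ker W, gv φ (act π.ker W g c) = B *ᵥ gv φ c) → ∀ y,
      T.1 *ᵥ ((U * B * X) *ᵥ y) = d₂ • s.e (ac g (x y)) := by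
    intro g B hB y
    have h3 := hT1 (ac g (x y))
    rw [hc, hac, hB, ← hc, hx] at h3
    rw [h3, Matrix.mulVec_smul, smul_smul, mul_inv_cancel₀ h2, one_smul]
    simp only [Matrix.mulVec_mulVec, Matrix.mul_assoc]
  refine ⟨T, fun g B hB => Matrix.mulVec_injective (funext fun y => ?_), ?_⟩
  · have h3 : T.1 *ᵥ y = d₁⁻¹ • s.e (x y) := by
      rw [hxe, smul_smul, inv_mul_cancel₀ h1, one_smul]
    rw [← Matrix.mulVec_mulVec, ← Matrix.mulVec_mulVec, h3, Matrix.mulVec_smul, heq',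
      Matrix.smul_mulVec, Matrix.mulVec_smul, key g B hB, smul_smul, smul_smul]
    congr 1
    field_simp
  intro L L₁ hlat B hB hint
  obtain ⟨z, hz⟩ : ∃ z : Γ × Fin r → Fin r → ℂ,
      ∀ p a, z p a = (U * B p.1 * X) a p.2 := ⟨_, fun p a => rfl⟩
  obtain ⟨P₀, hP₀e, hP₀⟩ := hlat (Set.range z) (by
    rintro _ ⟨p, rfl⟩ a
    rw [hz]
    exact hint p.1 a p.2)
  have hTz : ∀ p, T.1 *ᵥ z p = d₂ • s.e (ac p.1 (x (Pi.single p.2 1))) := by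
    intro p
    rw [← key p.1 (B p.1) (hB p.1), Matrix.mulVec_single_one]
    congr 1
    funext a
    rw [hz]
    rfl
  -- the lattice spans
  have hPu : IsUnit P₀ := by
    rw [← Matrix.mulVec_surjective_iff_isUnit]
    have h4 : ∀ i : Fin r, ∃ u, P₀ *ᵥ u = Pi.single i 1 := by
      intro i
      obtain ⟨u, -, hu⟩ := (hP₀ (z (1, i))).1 (Submodule.subset_span ⟨(1, i), rfl⟩)
      refine ⟨(d₁ * d₂)⁻¹ • u, ?_⟩
      rw [Matrix.mulVec_smul, ← hu]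
      have h5 := hTz (1, i)
      rw [ac_one, hxe, smul_smul, mul_comm d₂, ← Matrix.mulVec_smul] at h5
      have h6 := congrArg (fun v => (T⁻¹).1 *ᵥ v) h5
      change (T⁻¹).1 *ᵥ (T.1 *ᵥ _) = (T⁻¹).1 *ᵥ (T.1 *ᵥ _) at h6
      rw [Matrix.mulVec_mulVec, Matrix.mulVec_mulVec, T.inv_mul, Matrix.one_mulVec,
        Matrix.one_mulVec] at h6
      rw [h6, smul_smul, inv_mul_cancel₀ (mul_ne_zero h1 h2), one_smul]
    choose u hu using h4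
    intro v
    refine ⟨∑ i, v i • u i, ?_⟩
    rw [Matrix.mulVec_sum]
    have h5 : v = ∑ i, v i • (Pi.single i 1 : Fin r → ℂ) := by
      funext a
      simp [Finset.sum_apply, Pi.single_apply]
    conv_rhs => rw [h5]
    refine Finset.sum_congr rfl fun i _ => ?_
    rw [Matrix.mulVec_smul, hu]
  obtain ⟨P, hP⟩ := hPu
  have hstab : ∀ g, ∀ v ∈ Submodule.span (OO L₁) (Set.range z),
      ∃ v' ∈ Submodule.span (OO L₁) (Set.range z),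
      (ρ (π g)).1 *ᵥ (T.1 *ᵥ v) = (χ (π g) : ℂ) • (T.1 *ᵥ v') := by
    intro g v hv
    induction hv using Submodule.span_induction with
    | mem v hv =>
      obtain ⟨p, rfl⟩ := hv
      refine ⟨z (g * p.1, p.2), Submodule.subset_span ⟨_, rfl⟩, ?_⟩
      rw [hTz, hTz, Matrix.mulVec_smul, heq', ac_mul, smul_comm]
    | zero =>
      refine ⟨0, Submodule.zero_mem _, ?_⟩
      rw [Matrix.mulVec_zero, Matrix.mulVec_zero, smul_zero]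
    | add u u' _ _ h h' =>
      obtain ⟨v, hv, h3⟩ := h
      obtain ⟨v', hv', h3'⟩ := h'
      refine ⟨v + v', Submodule.add_mem _ hv hv', ?_⟩
      rw [Matrix.mulVec_add, Matrix.mulVec_add, Matrix.mulVec_add, h3, h3', smul_add]
    | smul t u _ h =>
      obtain ⟨v, hv, h3⟩ := h
      refine ⟨t • v, Submodule.smul_mem _ t hv, ?_⟩
      have h4 : ∀ y : Fin r → ℂ, t • y = (t : ℂ) • y := fun y => rfl
      rw [h4, h4, Matrix.mulVec_smul, Matrix.mulVec_smul, Matrix.mulVec_smul, h3, smul_comm]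
  refine ⟨P, fun g => ?_⟩
  have h3 : ∀ i : Fin r, ∃ a : Fin r → ℂ, (∀ j, a j ∈ OO L₁) ∧
      (ρ (π g)).1 *ᵥ (T.1 *ᵥ (P.1 *ᵥ Pi.single i 1)) =
      (χ (π g) : ℂ) • (T.1 *ᵥ (P.1 *ᵥ a)) := by
    intro i
    obtain ⟨v', hv', h4⟩ := hstab g (P₀ *ᵥ Pi.single i 1) ((hP₀ _).2 ⟨_, fun j => by
      rw [Pi.single_apply]
      split_ifs
      · exact one_mem _
      · exact zero_mem _, rfl⟩)
    obtain ⟨a, ha, rfl⟩ := (hP₀ v').1 hv'
    refine ⟨a, ha, ?_⟩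
    rw [← hP] at h4
    exact h4
  choose a ha' ha using h3
  refine ⟨Matrix.of fun j i => a i j, fun i j => ha' j i, ?_⟩
  ext i j
  have h4 := congrFun (ha j) i
  rw [Matrix.mulVec_mulVec, Matrix.mulVec_mulVec, Matrix.mulVec_mulVec,
    Matrix.mulVec_single_one, Matrix.mul_assoc] at h4
  rw [Matrix.mul_smul]
  change ((ρ (π g)).1 * (T.1 * P.1)) i j = (χ (π g) : ℂ) * ∑ k, (T.1 * P.1) i k * a j k
  exact h4

end sit

end Vale.Agent.P002.H934
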