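import Vale.Agent.P002.H934.Lat
import Vale.Agent.P002.H934.Help
import Vale.Agent.P002.H306.Dens

/-!
# Direct images: density for finitely generated kernels
-/

namespace Vale.Agent.P002.H934

open Matrix NumberField Vale.Agent.P002R.Orb Vale.Agent.P002.H252

variable {ι κ : Type} {m n r q d b : ℕ} {R : Set (FreeGroup ι)} {R' : Set (FreeGroup κ)}

/-- The matrices at a direct image, from polynomials. -/
theorem data_at (π : PresentedGroup R' →* PresentedGroup R) (A : Set (PresentedGroup R'))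
    (hA : ∀ g x, x ∈ A → g⁻¹ * x * g ∈ A) (χ : PresentedGroup R →* ℂˣ)
    (φ : FreeGroup (Fin n) →* π.ker) (hφ : Function.Surjective φ) {Q : Type}
    (row : Q → Fin n × Fin m → PZ κ m) (S : Matrix (Fin n × Fin m) (Fin m) (PZ κ m))
    {V : κ → SpecialLinearGroup (Fin m) ℂ}
    {W : PresentedGroup R' →* SpecialLinearGroup (Fin m) ℂ}
    {ρ : PresentedGroup R →* SpecialLinearGroup (Fin r) ℂ}
    (hrow : ∀ z : Fin n × Fin m → ℂ,
      (∃ c : ZP π.ker A W, gv φ c.1 = z) ↔ ∀ a, ∑ j, ev V (row a j) * z j = 0)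
    (hS : ∀ v, gv φ (cob π.ker W v) = S.map (ev V) *ᵥ v)
    (hdi : IsDirZ π A χ W ρ) :
    (∃ (q d b : ℕ) (ρ' : Fin q → Q) (σ₁ : Fin q ⊕ Fin d ≃ Fin n × Fin m)
      (σ₂ : Fin b ⊕ Fin r ≃ Fin d) (τ : Fin b → Fin m),
      ev V (Ep (Matrix.of fun i => row (ρ' i)) σ₁).det ≠ 0 ∧ ev V (S1 S σ₁ σ₂ τ).det ≠ 0) ∧
    ∀ (q d b : ℕ) (ρ' : Fin q → Q) (σ₁ : Fin q ⊕ Fin d ≃ Fin n × Fin m)
      (σ₂ : Fin b ⊕ Fin r ≃ Fin d) (τ : Fin b → Fin m),
      ev V (Ep (Matrix.of fun i => row (ρ' i)) σ₁).det ≠ 0 → ev V (S1 S σ₁ σ₂ τ).det ≠ 0 →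
    ∃ T : (Matrix (Fin r) (Fin r) ℂ)ˣ,
      (∀ (g : PresentedGroup R') (B : Matrix (Fin n × Fin m) (Fin n × Fin m) (PZ κ m)),
        (∀ c : Z1 π.ker W, gv φ (act π.ker W g c) = B.map (ev V) *ᵥ gv φ c) →
        (ρ (π g)).1 * T.1 = T.1 * (((χ (π g) : ℂ) *
          (ev V ((Ep (Matrix.of fun i => row (ρ' i)) σ₁).det * (S1 S σ₁ σ₂ τ).det))⁻¹) •
          (E1 S σ₁ σ₂ τ * B * X1 (Matrix.of fun i => row (ρ' i)) σ₁ σ₂).map (ev V))) ∧
      ∀ L L₁ : IntermediateField ℚ ℂ, Lat L L₁ r → (∀ f : PZ κ m, ev V f ∈ OO L) →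
        ∀ B : PresentedGroup R' → Matrix (Fin n × Fin m) (Fin n × Fin m) (PZ κ m),
        (∀ g, ∀ c : Z1 π.ker W, gv φ (act π.ker W g c) = (B g).map (ev V) *ᵥ gv φ c) →
        ∃ P : (Matrix (Fin r) (Fin r) ℂ)ˣ, ∀ g, ∃ D : Matrix (Fin r) (Fin r) ℂ,
          (∀ i j, D i j ∈ OO L₁) ∧
          (ρ (π g)).1 * (T.1 * P.1) = (T.1 * P.1) * ((χ (π g) : ℂ) • D) := by
  classical
  obtain ⟨e, hs, he, heq⟩ := hdi
  obtain ⟨s, hsc, hse⟩ := exists_sit (row := fun a j => ev V (row a j)) (S := S.map (ev V))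
    π A W φ hφ hrow hS e hs he
  have hE : ∀ {q : ℕ} (ρ' : Fin q → Q),
      (Matrix.of fun i => (fun a j => ev V (row a j)) (ρ' i) :
        Matrix (Fin q) (Fin n × Fin m) ℂ) = (Matrix.of fun i => row (ρ' i)).map (ev V) :=
    fun ρ' => rfl
  have hEp : ∀ {q d : ℕ} (ρ' : Fin q → Q) (σ₁ : Fin q ⊕ Fin d ≃ Fin n × Fin m),
      (Ep (Matrix.of fun i => (fun a j => ev V (row a j)) (ρ' i)) σ₁).det =
        ev V (Ep (Matrix.of fun i => row (ρ' i)) σ₁).det := by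
    intro q d ρ' σ₁
    rw [det_map']
    rfl
  have hS1 : ∀ {q d b : ℕ} (σ₁ : Fin q ⊕ Fin d ≃ Fin n × Fin m)
      (σ₂ : Fin b ⊕ Fin r ≃ Fin d) (τ : Fin b → Fin m),
      (S1 (S.map (ev V)) σ₁ σ₂ τ).det = ev V (S1 S σ₁ σ₂ τ).det := by
    intro q d b σ₁ σ₂ τ
    rw [det_map']
    rfl
  constructor
  · obtain ⟨q, d, b, ρ', σ₁, σ₂, τ, h1, h2⟩ := s.exists_pivots
    refine ⟨q, d, b, ρ', σ₁, σ₂, τ, ?_, ?_⟩
    · rw [← hEp]
      exact h1
    · rw [← hS1]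
      exact h2
  intro q d b ρ' σ₁ σ₂ τ h1 h2
  have hmat : ∀ B : Matrix (Fin n × Fin m) (Fin n × Fin m) (PZ κ m),
      (E1 S σ₁ σ₂ τ * B * X1 (Matrix.of fun i => row (ρ' i)) σ₁ σ₂).map (ev V) =
      E1 (S.map (ev V)) σ₁ σ₂ τ * B.map (ev V) *
        X1 (Matrix.of fun i => (fun a j => ev V (row a j)) (ρ' i)) σ₁ σ₂ := by
    intro B
    rw [Matrix.map_mul, Matrix.map_mul, E1_map, X1_map]
    rfl
  obtain ⟨T, hT, hL⟩ := conj_of_sit π A hA χ W ρ φ s hsc (by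
    intro g c c' h
    rw [hse]
    exact heq g c c' h) ρ' σ₁ σ₂ τ (by rw [hEp]; exact h1) (by rw [hS1]; exact h2)
  refine ⟨T, fun g B hB => ?_, fun L L₁ hlat hev B hB => ?_⟩
  · have h3 := hT g (B.map (ev V)) hB
    rw [hmat, map_mul, ← hEp, ← hS1]
    exact h3
  · refine hL L L₁ hlat (fun g => (B g).map (ev V)) hB fun g i j => ?_
    rw [← hmat]
    exact hev _

/-- **Integrality.** Direct images of integral representations are conjugate to integral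
representations. -/
theorem gdi_integral (π : PresentedGroup R' →* PresentedGroup R) (hπ : Function.Surjective π)
    (A : Set (PresentedGroup R')) (hA : ∀ g x, x ∈ A → g⁻¹ * x * g ∈ A)
    (χ : PresentedGroup R →* ℂˣ) (hχ : ∀ g, IsIntegral ℤ (χ g).1)
    (φ : FreeGroup (Fin n) →* π.ker) (hφ : Function.Surjective φ)
    {Q : Type} (row : Q → Fin n × Fin m → PZ κ m)
    {L' L L₁ : IntermediateField ℚ ℂ} (hLL : L' ≤ L) (hLL₁ : L ≤ L₁) (hlat : Lat L L₁ r)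
    (hL : ∀ p : ι, ((χ (PresentedGroup.of p) : ℂˣ) : ℂ) ∈ L)
    {V : κ → SpecialLinearGroup (Fin m) ℂ} (hV : IsIntegralRep L' V)
    (hrow : ∀ W : PresentedGroup R' →* SpecialLinearGroup (Fin m) ℂ,
      (∀ p, W (PresentedGroup.of p) = V p) → ∀ z : Fin n × Fin m → ℂ,
      (∃ c : ZP π.ker A W, gv φ c.1 = z) ↔ ∀ a, ∑ j, ev V (row a j) * z j = 0)
    {X : ι → SpecialLinearGroup (Fin r) ℂ} (hX : IsDI π A χ V X) :
    ∃ Q : SpecialLinearGroup (Fin r) ℂ, IsIntegralRep L₁ fun p => Q⁻¹ * X p * Q := by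
  classical
  obtain ⟨W, ρ, hW, hρ, hdi⟩ := hX
  obtain ⟨S, hS⟩ := gcob_poly (m := m) φ
  choose B hB using fun g => gact_poly (m := m) φ hφ g
  obtain ⟨⟨q, d, b, ρ', σ₁, σ₂, τ, h1, h2⟩, hall⟩ :=
    data_at π A hA χ φ hφ row S (hrow W hW) (hS V W hW) (isDirZ hdi)
  obtain ⟨T, hT, hLat⟩ := hall q d b ρ' σ₁ σ₂ τ h1 h2
  have hev : ∀ f : PZ κ m, ev V f ∈ OO L := by
    intro f
    refine value_mem (s := OO L) f V fun p i j => ?_
    obtain ⟨a, ha⟩ := hV p i j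
    rw [ha]
    exact OO_mono hLL (cO_mem a)
  obtain ⟨P, hP⟩ := hLat L L₁ hlat hev B fun g => hB g V W hW
  choose γ hγ using fun p : ι => hπ (PresentedGroup.of p)
  choose D hD hPD using fun p : ι => hP (γ p)
  obtain ⟨Q, hQ⟩ := exists_sl (T * P)
  refine ⟨Q, fun p i j => ?_⟩
  have h3 : (Q⁻¹ * X p * Q).1 = (χ (PresentedGroup.of p) : ℂ) • D p := by
    refine hQ _ _ ?_
    have h4 := hPD p
    rw [hγ, hρ] at h4
    rw [Units.val_mul]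
    exact h4
  obtain ⟨a, ha⟩ := exists_cO (L := L₁) (z := (Q⁻¹ * X p * Q).1 i j) (by
    rw [h3]
    exact mul_mem (⟨hLL₁ (hL p), hχ _⟩ : _ ∈ OO L₁) (hD p i j))
  exact ⟨a, ha.symm⟩

theorem infU : (Set.univ : Set ℂˣ).Infinite := by
  have h : Infinite ℂˣ := Infinite.of_injective
    (fun n : ℕ => Units.mk0 ((n : ℂ) + 1) (Nat.cast_add_one_ne_zero n)) (by
      intro a b h
      have h1 := congrArg (fun u : ℂˣ => (u : ℂ)) h
      exact Nat.cast_injective (add_right_cancel h1))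
  exact Set.infinite_univ

/-- **Density.** -/
theorem gdi_dense [Finite ι] (π : PresentedGroup R' →* PresentedGroup R)
    (hπ : Function.Surjective π) (A : Set (PresentedGroup R'))
    (hA : ∀ g x, x ∈ A → g⁻¹ * x * g ∈ A) (χ : PresentedGroup R →* ℂˣ)
    (hχ : ∀ g, IsIntegral ℤ (χ g).1) (φ : FreeGroup (Fin n) →* π.ker)
    (hφ : Function.Surjective φ) (T : Set (κ → SpecialLinearGroup (Fin m) ℂ))
    (P : Set (MvPolynomial (κ × Fin m × Fin m) ℂ)) (Y : Set (ι → SpecialLinearGroup (Fin r) ℂ))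
    (hY : ∀ X ∈ Y, ∀ Q : SpecialLinearGroup (Fin r) ℂ, (fun p => Q⁻¹ * X p * Q) ∈ Y)
    (hU : ∀ V ∈ OpenIn T P, ∃ X ∈ Y, IsDI π A χ V X)
    (hk : ∀ x ∈ A, ∃ k : ℕ, ∀ V ∈ OpenIn T P,
      ∀ W : PresentedGroup R' →* SpecialLinearGroup (Fin m) ℂ,
      (∀ p, W (PresentedGroup.of p) = V p) → ((W x).1 - 1).rank = k)
    (L' : IntermediateField ℚ ℂ) (hL' : FiniteDimensional ℚ L') (hT : IsDenseRep L' T) :
    ∃ L : IntermediateField ℚ ℂ, FiniteDimensional ℚ L ∧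
      IsDenseRep L {X ∈ Y | ∃ V ∈ OpenIn T P, IsDI π A χ V X} := by
  classical
  obtain ⟨L, hLf, hLL, hL⟩ := exists_L L' hL' χ hχ
  obtain ⟨L₁, hL₁f, hLL₁, hlat⟩ := exists_lat r L hLf
  refine ⟨L₁, hL₁f, ?_⟩
  intro F hvan X₀ hX₀
  obtain ⟨hX₀Y, V₀, hV₀, hX₀d⟩ := hX₀
  obtain ⟨W, ρ, hW, hρ, hdi⟩ := id hX₀d
  obtain ⟨hV₀T, F₀, hF₀P, hF₀⟩ := id hV₀
  obtain ⟨k, hk'⟩ : ∃ k : π.ker → ℕ, ∀ V ∈ OpenIn T P,
      ∀ W : PresentedGroup R' →* SpecialLinearGroup (Fin m) ℂ,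
      (∀ p, W (PresentedGroup.of p) = V p) → ∀ x : π.ker, (x : PresentedGroup R') ∈ A →
      ((W x).1 - 1).rank = k x := by
    choose k hk using hk
    refine ⟨fun x => if h : (x : PresentedGroup R') ∈ A then k x h else 0,
      fun V hV W hW x hx => ?_⟩
    beta_reduce
    rw [dif_pos hx]
    exact hk x hx V hV W hW
  obtain ⟨S, hS⟩ := gcob_poly (m := m) φ
  obtain ⟨Q, row, hrow'⟩ := prow_poly (m := m) φ hφ A k
  have hrow : ∀ V ∈ OpenIn T P, ∀ W : PresentedGroup R' →* SpecialLinearGroup (Fin m) ℂ,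
      (∀ p, W (PresentedGroup.of p) = V p) → ∀ z : Fin n × Fin m → ℂ,
      (∃ c : ZP π.ker A W, gv φ c.1 = z) ↔ ∀ a, ∑ j, ev V (row a j) * z j = 0 :=
    fun V hV W hW => hrow' V W hW (hk' V hV W hW)
  choose B hB using fun g => gact_poly (m := m) φ hφ g
  choose γ hγ using fun p : ι => hπ (PresentedGroup.of p)
  obtain ⟨q, d, b, ρ', σ₁, σ₂, τ, h1, h2⟩ :=
    (data_at π A hA χ φ hφ row S (hrow V₀ hV₀ W hW) (hS V₀ W hW) (isDirZ hdi)).1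
  obtain ⟨δ, hδ⟩ : ∃ δ, δ =
    (Ep (Matrix.of fun i => row (ρ' i)) σ₁).det * (S1 S σ₁ σ₂ τ).det := ⟨_, rfl⟩
  obtain ⟨N, hN⟩ : ∃ N : ι → Matrix (Fin r) (Fin r) (PZ κ m), ∀ p, N p =
    E1 S σ₁ σ₂ τ * B (γ p) * X1 (Matrix.of fun i => row (ρ' i)) σ₁ σ₂ := ⟨_, fun _ => rfl⟩
  have hδ₀ : ev V₀ δ ≠ 0 := by
    rw [hδ, map_mul]
    exact mul_ne_zero h1 h2
  -- the model at `V`
  obtain ⟨NV, hNV⟩ : ∃ NV : (κ → SpecialLinearGroup (Fin m) ℂ) → ι → Matrix (Fin r) (Fin r) ℂ,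
      ∀ V p, NV V p = ((χ (PresentedGroup.of p) : ℂ) * (ev V δ)⁻¹) • (N p).map (ev V) :=
    ⟨_, fun _ _ => rfl⟩
  have model : ∀ V ∈ OpenIn T P, ∀ X : ι → SpecialLinearGroup (Fin r) ℂ,
      IsDI π A χ V X → ev V δ ≠ 0 →
      ∃ T₁ : (Matrix (Fin r) (Fin r) ℂ)ˣ, ∀ p, (X p).1 * T₁.1 = T₁.1 * NV V p := by
    intro V hV X hX hd
    obtain ⟨W, ρ, hW, hρ, hdi⟩ := hX
    have hd12 := hd
    rw [hδ, map_mul] at hd12
    obtain ⟨T₁, hT₁, _⟩ := (data_at π A hA χ φ hφ row S (hrow V hV W hW) (hS V W hW)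
      (isDirZ hdi)).2 q d b ρ' σ₁ σ₂ τ (left_ne_zero_of_mul hd12) (right_ne_zero_of_mul hd12)
    refine ⟨T₁, fun p => ?_⟩
    have h3 := hT₁ (γ p) (B (γ p)) (hB (γ p) V W hW)
    rw [hγ, hρ, ← hδ] at h3
    rw [hNV, hN]
    exact h3
  obtain ⟨T₀, hT₀⟩ := model V₀ hV₀ X₀ hX₀d hδ₀
  -- polynomials
  obtain ⟨G, M, hG⟩ := exists_hom
    (fun t : ι × Fin r × Fin r => ∑ i, ∑ j, MvPolynomial.C (T₀.1 t.2.1 i) *
      (MvPolynomial.C ((χ (PresentedGroup.of t.1) : ℂˣ) : ℂ) *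
      MvPolynomial.map (Int.castRingHom ℂ) (N t.1 i j)) * MvPolynomial.C ((T₀⁻¹).1 j t.2.2))
    (MvPolynomial.map (Int.castRingHom ℂ) δ) F
  have key : ∀ V, ev V δ ≠ 0 → MvPolynomial.eval (pt V) G = (ev V δ) ^ M *
      MvPolynomial.eval (fun t : ι × Fin r × Fin r =>
        (T₀.1 * NV V t.1 * (T₀⁻¹).1) t.2.1 t.2.2) F := by
    intro V hd
    have hd' := hd
    rw [← eval_map_ev] at hd'
    rw [hG (pt V) hd', eval_map_ev]
    congr 2
    refine congrArg MvPolynomial.eval (funext fun t => ?_)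
    simp only [map_sum, map_mul, MvPolynomial.eval_C, eval_map_ev, Matrix.mul_apply,
      Finset.sum_mul, Finset.mul_sum, hNV, Matrix.smul_apply, Matrix.map_apply, smul_eq_mul]
    rw [Finset.sum_comm]
    refine Finset.sum_congr rfl fun i _ => Finset.sum_congr rfl fun j _ => ?_
    ring
  -- the polynomial which vanishes on `T`
  obtain ⟨H, hH⟩ : ∃ H : MvPolynomial (κ × Fin m × Fin m) ℂ, H = G *
      MvPolynomial.map (Int.castRingHom ℂ) δ * F₀ := ⟨_, rfl⟩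
  have hHT : ∀ V ∈ T, value H V = 0 := by
    refine hT H fun V hV hVi => ?_
    rw [value_eq, hH, map_mul, map_mul, eval_map_ev]
    by_cases hd : ev V δ = 0
    · rw [hd, mul_zero, zero_mul]
    by_cases hF0 : MvPolynomial.eval (pt V) F₀ = 0
    · rw [hF0, mul_zero]
    have hVo : V ∈ OpenIn T P := ⟨hV, F₀, hF₀P, hF0⟩
    obtain ⟨X, hXY, hX⟩ := hU V hVo
    obtain ⟨T₁, hT₁⟩ := model V hVo X hX hd
    obtain ⟨Q₁, hQ₁⟩ := gdi_integral π hπ A hA χ hχ φ hφ row hLL hLL₁ hlat hL hVi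
      (hrow V hVo) hX
    obtain ⟨Z, hZ⟩ : ∃ Z : ι → SpecialLinearGroup (Fin r) ℂ, Z = fun p => Q₁⁻¹ * X p * Q₁ :=
      ⟨_, rfl⟩
    rw [← hZ] at hQ₁
    have h3 : ∀ T : (Matrix (Fin r) (Fin r) ℂ)ˣ, MvPolynomial.eval
        (fun q : ι × Fin r × Fin r => (T.1 * (Z q.1).1 * (T⁻¹).1) q.2.1 q.2.2) F = 0 := by
      intro T
      refine Vale.Agent.P002.H306.dens (s := 0) (fun _ p => (Z p).1) (fun y i => i.elim0)
        Set.univ infU F (fun S y _ => ?_) T fun i => i.elim0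
      obtain ⟨S', hS'⟩ : ∃ S' : SpecialLinearGroup (Fin r) ℂ,
        S' = SpecialLinearGroup.map (Int.castRingHom ℂ) S := ⟨_, rfl⟩
      have h4 : (fun p => (Q₁ * S'⁻¹)⁻¹ * X p * (Q₁ * S'⁻¹)) =
          fun p => S' * Z p * S'⁻¹ := by
        funext p
        rw [hZ]
        group
      have h5 : value F (fun p => S' * Z p * S'⁻¹) = 0 := by
        refine hvan _ ⟨?_, V, hVo, ?_⟩ ?_
        · rw [← h4]
          exact hY X hXY _
        · rw [← h4]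
          exact hX.conj _
        · intro p i j
          have h6 : (S' * Z p * S'⁻¹).1 i j ∈ OO L₁ := by
            have h7 : ∀ a b, (S'.1 a b) ∈ OO L₁ ∧ (S'⁻¹).1 a b ∈ OO L₁ := by
              intro a b
              have h8 : S'⁻¹ = SpecialLinearGroup.map (Int.castRingHom ℂ) S⁻¹ := by
                rw [hS', map_inv]
              constructor
              · rw [hS']
                exact intCast_mem (OO L₁) (S.1 a b)
              · rw [h8]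
                exact intCast_mem (OO L₁) ((S⁻¹).1 a b)
            change ∑ b, (∑ a, S'.1 i a * (Z p).1 a b) * (S'⁻¹).1 b j ∈ OO L₁
            refine sum_mem fun b _ => mul_mem (sum_mem fun a _ => mul_mem (h7 _ _).1 ?_) (h7 _ _).2
            obtain ⟨c, hc⟩ := hQ₁ p a b
            rw [hc]
            exact cO_mem c
          obtain ⟨a, ha⟩ := exists_cO h6
          exact ⟨a, ha.symm⟩
      rw [value_eq] at h5
      rw [← h5]
      refine congrArg (fun g => MvPolynomial.eval g F) (funext fun t => ?_)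
      have h6 : (S⁻¹).1.map (Int.castRingHom ℂ) = (S'⁻¹).1 := by
        rw [hS', ← map_inv]
        rfl
      change (S.1.map (Int.castRingHom ℂ) * (Z t.1).1 * (S⁻¹).1.map (Int.castRingHom ℂ))
        t.2.1 t.2.2 = (S'.1 * (Z t.1).1 * (S'⁻¹).1) t.2.1 t.2.2
      rw [h6, hS']
      rfl
    obtain ⟨U₁, hU₁⟩ : ∃ U₁ : (Matrix (Fin r) (Fin r) ℂ)ˣ, U₁.1 = Q₁.1 ∧ (U₁⁻¹).1 = (Q₁⁻¹).1 :=
      ⟨⟨Q₁.1, (Q₁⁻¹).1, congrArg Subtype.val (mul_inv_cancel Q₁),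
        congrArg Subtype.val (inv_mul_cancel Q₁)⟩, rfl, rfl⟩
    have h4 := h3 (T₀ * T₁⁻¹ * U₁)
    have h5 : ∀ p, (T₀ * T₁⁻¹ * U₁).1 * (Z p).1 * ((T₀ * T₁⁻¹ * U₁)⁻¹).1 =
        T₀.1 * NV V p * (T₀⁻¹).1 := by
      intro p
      have h6 : (Z p).1 = (U₁⁻¹).1 * (X p).1 * U₁.1 := by
        rw [hU₁.1, hU₁.2, hZ]
        rfl
      have h7 : (X p).1 = T₁.1 * NV V p * (T₁⁻¹).1 := by
        rw [← hT₁, Matrix.mul_assoc, T₁.mul_inv, Matrix.mul_one]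
      rw [h6, h7, _root_.mul_inv_rev, _root_.mul_inv_rev, inv_inv]
      simp only [Units.val_mul, Matrix.mul_assoc]
      rw [← Matrix.mul_assoc U₁.1 (U₁⁻¹).1, U₁.mul_inv, Matrix.one_mul,
        ← Matrix.mul_assoc (T₁⁻¹).1 T₁.1, T₁.inv_mul, Matrix.one_mul,
        ← Matrix.mul_assoc U₁.1 (U₁⁻¹).1, U₁.mul_inv, Matrix.one_mul,
        ← Matrix.mul_assoc (T₁⁻¹).1 T₁.1, T₁.inv_mul, Matrix.one_mul]
    simp only [h5] at h4
    rw [key V hd, h4, mul_zero, zero_mul, zero_mul]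
  have h3 := hHT V₀ hV₀T
  rw [value_eq, hH, map_mul, map_mul, eval_map_ev, key V₀ hδ₀] at h3
  have h5 : ∀ p, T₀.1 * NV V₀ p * (T₀⁻¹).1 = (X₀ p).1 := by
    intro p
    rw [← hT₀, Matrix.mul_assoc, T₀.mul_inv, Matrix.mul_one]
  simp only [h5] at h3
  rcases mul_eq_zero.1 h3 with h4 | h4
  · rcases mul_eq_zero.1 h4 with h5 | h5
    · rcases mul_eq_zero.1 h5 with h6 | h6
      · exact absurd h6 (pow_ne_zero _ hδ₀)
      · exact h6
    · exact absurd h5 hδ₀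
  · exact absurd h4 hF₀

end Vale.Agent.P002.H934
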