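import Vale.Agent.P002.H934.Elim
import Vale.Agent.P002.H934.Gen

/-!
# Direct images: parabolic cocycles
-/

namespace Vale.Agent.P002.H934

open Matrix

variable {m n : ℕ}

section act

variable {Γ : Type} [Group Γ] {N : Subgroup Γ} {A : Set Γ}
  {W : Γ →* SpecialLinearGroup (Fin m) ℂ}

theorem cob_mem_ZP (v : Fin m → ℂ) : cob N W v ∈ ZP N A W := fun _ _ => ⟨v, rfl⟩

theorem act_mem_ZP [N.Normal] (hA : ∀ g x, x ∈ A → g⁻¹ * x * g ∈ A) (g : Γ) {c : Z1 N W}
    (hc : c ∈ ZP N A W) : act N W g c ∈ ZP N A W := by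
  intro x hx
  obtain ⟨u, hu⟩ := hc (cj N g x) (hA g x hx)
  refine ⟨(W g).1 *ᵥ u, ?_⟩
  change (W g).1 *ᵥ c.1 (cj N g x) = _
  have h3 : (W g).1 * (W (cj N g x)).1 = (W x).1 * (W g).1 := by
    change (W g * W (g⁻¹ * x.1 * g)).1 = (W x * W g).1
    rw [← map_mul, ← map_mul]
    congr 2
    group
  rw [hu, Matrix.mulVec_sub, Matrix.mulVec_mulVec, Matrix.mulVec_mulVec, h3]

end act

section minors

/-- The coefficients of the minor of `(y, A)` with rows `I` and columns `0, K`. -/
def mrow {R : Type*} [CommRing R] (A : Matrix (Fin m) (Fin m) R) {k : ℕ}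
    (I : Fin (k + 1) → Fin m) (K : Fin k → Fin m) (i : Fin (k + 1)) : R :=
  (-1) ^ (i : ℕ) * (A.submatrix (I ∘ i.succAbove) K).det

theorem mrow_map {R R' : Type*} [CommRing R] [CommRing R'] (f : R →+* R')
    (A : Matrix (Fin m) (Fin m) R) {k : ℕ} (I : Fin (k + 1) → Fin m) (K : Fin k → Fin m)
    (i : Fin (k + 1)) : f (mrow A I K i) = mrow (A.map f) I K i := by
  rw [mrow, mrow, map_mul, map_pow, map_neg, map_one, det_map']
  rfl

/-- The matrix `(y, A)`. -/
def yA (A : Matrix (Fin m) (Fin m) ℂ) {k : ℕ} (y : Fin m → ℂ) (K : Fin k → Fin m) :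
    Matrix (Fin m) (Fin (k + 1)) ℂ :=
  Matrix.of fun a => Fin.cons (y a) fun j => A a (K j)

theorem yA_det (A : Matrix (Fin m) (Fin m) ℂ) {k : ℕ} (y : Fin m → ℂ)
    (I : Fin (k + 1) → Fin m) (K : Fin k → Fin m) :
    ((yA A y K).submatrix I id).det = ∑ i, mrow A I K i * y (I i) := by
  rw [Matrix.det_succ_column_zero]
  refine Finset.sum_congr rfl fun i _ => ?_
  have h1 : ((yA A y K).submatrix I id).submatrix i.succAbove Fin.succ =
      A.submatrix (I ∘ i.succAbove) K := rfl
  have h2 : ((yA A y K).submatrix I id) i 0 = y (I i) := rfl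
  rw [h1, h2, mrow]
  ring

theorem yA_mulVec (A : Matrix (Fin m) (Fin m) ℂ) {k : ℕ} (y : Fin m → ℂ) (K : Fin k → Fin m)
    (v : Fin (k + 1) → ℂ) :
    yA A y K *ᵥ v = v 0 • y + A.submatrix id K *ᵥ fun j => v j.succ := by
  funext a
  change ∑ j, yA A y K a j * v j = v 0 * y a + ∑ j, A a (K j) * v j.succ
  rw [Fin.sum_univ_succ]
  change y a * v 0 + _ = _
  rw [mul_comm]
  rfl

/-- A vector is in the image of a matrix of rank `k` if the minors of order `k + 1` vanish. -/
theorem range_iff (A : Matrix (Fin m) (Fin m) ℂ) {k : ℕ} (hk : A.rank = k) (y : Fin m → ℂ) :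
    (∃ u, y = A *ᵥ u) ↔ ∀ (I : Fin (k + 1) → Fin m) (K : Fin k → Fin m),
      ∑ i, mrow A I K i * y (I i) = 0 := by
  classical
  constructor
  · rintro ⟨u, rfl⟩ I K
    rw [← yA_det]
    by_contra hne
    have h1 : Function.Injective (yA A (A *ᵥ u) K).mulVecLin := by
      rw [← LinearMap.ker_eq_bot, LinearMap.ker_eq_bot']
      intro v hv
      refine Matrix.eq_zero_of_mulVec_eq_zero hne ?_
      funext i
      exact congrFun hv (I i)
    have h2 := LinearMap.finrank_range_of_inj h1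
    rw [Module.finrank_fin_fun] at h2
    have h3 : LinearMap.range (yA A (A *ᵥ u) K).mulVecLin ≤ LinearMap.range A.mulVecLin := by
      rintro z ⟨v, rfl⟩
      obtain ⟨v', hv'⟩ := sub_mulVec' (S := A) K fun j => v j.succ
      refine ⟨v 0 • u + v', ?_⟩
      rw [Matrix.mulVecLin_apply, Matrix.mulVecLin_apply, yA_mulVec, ← hv', Matrix.mulVec_add,
        Matrix.mulVec_smul]
    have h4 := Submodule.finrank_mono h3
    have h5 : Module.finrank ℂ (LinearMap.range A.mulVecLin) = k := hk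
    omega
  · intro h
    by_contra hy
    obtain ⟨κ', a', ha', hsp', hli'⟩ := exists_linearIndependent' ℂ A.col
    have hfκ' : Finite κ' := hli'.finite
    have := Fintype.ofFinite κ'
    have hb : Fintype.card κ' = k := by
      rw [← finrank_span_eq_card hli', hsp', ← Matrix.range_mulVecLin]
      exact hk
    obtain ⟨ε'⟩ : Nonempty (Fin k ≃ κ') := ⟨(Fintype.equivFinOfCardEq hb).symm⟩
    obtain ⟨K, hK⟩ : ∃ K : Fin k → Fin m, K = a' ∘ ε' := ⟨_, rfl⟩
    have hliS : LinearIndependent ℂ (A.submatrix id K).col := by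
      have h1 : (A.submatrix id K).col = (A.col ∘ a') ∘ ε' := by
        rw [hK]
        rfl
      rw [h1]
      exact hli'.comp ε' ε'.injective
    have hSinj : Function.Injective (A.submatrix id K).mulVec := by
      rw [Matrix.mulVec_injective_iff]
      exact hliS
    have hinj : Function.Injective (yA A y K).mulVecLin := by
      rw [← LinearMap.ker_eq_bot, LinearMap.ker_eq_bot']
      intro v hv
      rw [Matrix.mulVecLin_apply, yA_mulVec] at hv
      obtain ⟨v', hv'⟩ := sub_mulVec' (S := A) K fun j => v j.succ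
      have h0 : v 0 = 0 := by
        by_contra hv0
        apply hy
        refine ⟨(v 0)⁻¹ • -v', ?_⟩
        rw [Matrix.mulVec_smul, Matrix.mulVec_neg, hv', ← eq_neg_of_add_eq_zero_left hv,
          smul_smul, inv_mul_cancel₀ hv0, one_smul]
      rw [h0, zero_smul, zero_add] at hv
      have h1 : (fun j : Fin k => v j.succ) = 0 := hSinj (by
        rw [hv, Matrix.mulVec_zero])
      funext i
      refine Fin.cases h0 (fun j => ?_) i
      exact congrFun h1 j
    have hle : k + 1 ≤ m := by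
      have h1 := LinearMap.finrank_le_finrank_of_injective hinj
      rwa [Module.finrank_fin_fun, Module.finrank_fin_fun] at h1
    obtain ⟨r, hr⟩ := Nat.exists_eq_add_of_le hle
    obtain ⟨σ, hσ⟩ := exists_rows (r := r) (by rw [Fintype.card_fin]; exact hr) (yA A y K) hinj
    apply hσ
    have h1 := h (fun i => σ (Sum.inl i)) K
    rw [← yA_det] at h1
    exact h1

end minors

section rows

variable {κ : Type} {R' : Set (FreeGroup κ)} {N : Subgroup (PresentedGroup R')}
  (φ : FreeGroup (Fin n) →* N)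

/-- The equations of the parabolic cocycles, if the ranks are known. -/
theorem prow_poly (hφ : Function.Surjective φ) (A : Set (PresentedGroup R'))
    (k : N → ℕ) : ∃ (Q : Type) (row : Q → Fin n × Fin m → PZ κ m),
      ∀ (V : κ → SpecialLinearGroup (Fin m) ℂ)
      (W : PresentedGroup R' →* SpecialLinearGroup (Fin m) ℂ),
      (∀ p, W (PresentedGroup.of p) = V p) →
      (∀ x : N, (x : PresentedGroup R') ∈ A → ((W x).1 - 1).rank = k x) →
      ∀ z : Fin n × Fin m → ℂ,
      (∃ c : ZP N A W, gv φ c.1 = z) ↔ ∀ a, ∑ j, ev V (row a j) * z j = 0 := by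
  obtain ⟨row₀, hrow₀⟩ := row_poly (m := m) φ hφ
  have hφ' := hφ
  choose s hs using hφ'
  choose F hF using fun x : N => az_poly (m := m) φ (s x)
  choose M hM using fun x : N => word_poly (m := m) (x : PresentedGroup R')
  refine ⟨({u : FreeGroup (Fin n) // φ u = 1} × Fin m) ⊕
    (Σ x : {x : N // (x : PresentedGroup R') ∈ A},
      (Fin (k x.1 + 1) → Fin m) × (Fin (k x.1) → Fin m)),
    Sum.elim row₀ fun a p => ∑ i, mrow (M a.1.1 - 1) a.2.1 a.2.2 i *
      F a.1.1 p.1 (a.2.1 i) p.2, fun V W hW hk z => ?_⟩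
  have hM1 : ∀ x : N, (M x - 1).map (ev V) = (W x).1 - 1 := by
    intro x
    rw [Matrix.map_sub _ (map_sub (ev V)), Matrix.map_one _ (map_zero _) (map_one _), ← hM x V W hW]
  have h1 : ∀ (x : N) (c : Z1 N W) (I : Fin (k x + 1) → Fin m) (K : Fin (k x) → Fin m),
      ∑ i, mrow ((W x).1 - 1) I K i * c.1 x (I i) =
      ∑ p : Fin n × Fin m, ev V (∑ i, mrow (M x - 1) I K i * F x p.1 (I i) p.2) * gv φ c p := by
    intro x c I K
    have h2 : ∀ a, c.1 x a = ∑ p : Fin n × Fin m, ev V (F x p.1 a p.2) * gv φ c p := by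
      intro a
      have h3 := az_coc W φ c (s x)
      rw [hs, hF x V W hW] at h3
      rw [h3, Finset.sum_apply, Fintype.sum_prod_type]
      rfl
    simp only [h2, map_sum, map_mul, mrow_map, hM1, Finset.sum_mul, Finset.mul_sum]
    rw [Finset.sum_comm]
    refine Finset.sum_congr rfl fun p _ => Finset.sum_congr rfl fun i _ => ?_
    ring
  have h2 : ∀ (x : N) (c : Z1 N W), (∃ u, c.1 x = (W x).1 *ᵥ u - u) ↔
      ∃ u, c.1 x = ((W x).1 - 1) *ᵥ u := by
    intro x c
    simp only [Matrix.sub_mulVec, Matrix.one_mulVec]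
  constructor
  · rintro ⟨c, rfl⟩ a
    rcases a with a | ⟨⟨x, hx⟩, I, K⟩
    · exact (hrow₀ V W hW _).1 ⟨c.1, rfl⟩ a
    · have h3 := (range_iff _ (hk x hx) _).1 ((h2 x c.1).1 (c.2 x hx)) I K
      rw [h1] at h3
      exact h3
  · intro h
    obtain ⟨c, rfl⟩ := (hrow₀ V W hW z).2 fun a => h (Sum.inl a)
    refine ⟨⟨c, fun x hx => (h2 x c).2 ((range_iff _ (hk x hx) _).2 fun I K => ?_)⟩, rfl⟩
    rw [h1]
    exact h (Sum.inr ⟨⟨x, hx⟩, I, K⟩)

end rows

end Vale.Agent.P002.H934
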