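import Vale.Agent.P002.H934.Coc

/-!
# Direct images: the action is given by integral polynomials
-/

namespace Vale.Agent.P002.H934

open Matrix

variable {κ : Type} {m n : ℕ} {R' : Set (FreeGroup κ)}

/-- Integral polynomials in the entries of `m × m` matrices. -/
abbrev PZ (κ : Type) (m : ℕ) : Type := MvPolynomial (κ × Fin m × Fin m) ℤ

/-- The value of an integral polynomial. -/
noncomputable def ev (V : κ → SpecialLinearGroup (Fin m) ℂ) : PZ κ m →+* ℂ :=
  MvPolynomial.eval₂Hom (Int.castRingHom ℂ) fun p => (V p.1).1 p.2.1 p.2.2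

theorem word_poly (g : PresentedGroup R') : ∃ M : Matrix (Fin m) (Fin m) (PZ κ m),
    ∀ (V : κ → SpecialLinearGroup (Fin m) ℂ)
      (W : PresentedGroup R' →* SpecialLinearGroup (Fin m) ℂ),
      (∀ p, W (PresentedGroup.of p) = V p) → (W g).1 = M.map (ev V) := by
  obtain ⟨u, rfl⟩ := PresentedGroup.mk_surjective R' g
  induction u using FreeGroup.induction_on with
  | C1 =>
    refine ⟨1, fun V W h => ?_⟩
    rw [map_one, map_one, Matrix.map_one _ (map_zero _) (map_one _)]
    rfl
  | of p =>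
    refine ⟨fun i j => MvPolynomial.X (p, i, j), fun V W h => ?_⟩
    have h1 : W (PresentedGroup.mk R' (FreeGroup.of p)) = V p := h p
    rw [h1]
    ext i j
    change (V p).1 i j = MvPolynomial.eval₂Hom (Int.castRingHom ℂ) _ (MvPolynomial.X (p, i, j))
    rw [MvPolynomial.eval₂Hom_X']
  | inv_of p hp =>
    obtain ⟨M, hM⟩ := hp
    refine ⟨M.adjugate, fun V W h => ?_⟩
    have h1 := RingHom.map_adjugate (ev V) M
    rw [RingHom.mapMatrix_apply, RingHom.mapMatrix_apply] at h1
    rw [h1, ← hM V W h, map_inv, map_inv]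
    rfl
  | mul u v hu hv =>
    obtain ⟨M, hM⟩ := hu
    obtain ⟨M', hM'⟩ := hv
    refine ⟨M * M', fun V W h => ?_⟩
    rw [Matrix.map_mul, ← hM V W h, ← hM' V W h, map_mul, map_mul]
    rfl

end Vale.Agent.P002.H934
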